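import Vale.Agent.H96.BoxEig

/-!
# A lower bound for the Bose sum over the spectrum of the box
-/

open Matrix

namespace Vale.Agent.H96

set_option linter.unusedSectionVars false

/-- Closed form of a truncated geometric sum in exponential form. -/
theorem geom_exp_sum (x : ℝ) (M : ℕ) :
    (∑ m ∈ Finset.range M, Real.exp (-(((m : ℝ) + 1) * x))) * (Real.exp x - 1) =
      1 - Real.exp (-((M : ℝ) * x)) := by
  induction M with
  | zero => simp
  | succ M ih =>
    rw [Finset.sum_range_succ, add_mul, ih]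
    have h1 : Real.exp (-(((M : ℝ) + 1) * x)) * Real.exp x = Real.exp (-((M : ℝ) * x)) := by
      rw [← Real.exp_add]
      congr 1
      ring
    have h2 : ((M + 1 : ℕ) : ℝ) = (M : ℝ) + 1 := by push_cast; ring
    rw [h2, mul_sub, h1, mul_one]
    ring

/-- A truncated geometric sum is at most the Bose factor. -/
theorem geom_exp_sum_le {x : ℝ} (hx : 0 < x) (M : ℕ) :
    ∑ m ∈ Finset.range M, Real.exp (-(((m : ℝ) + 1) * x)) ≤ 1 / (Real.exp x - 1) := by
  have hpos : 0 < Real.exp x - 1 := by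
    have := Real.add_one_lt_exp (ne_of_gt hx)
    linarith
  rw [le_div_iff₀ hpos, geom_exp_sum]
  have := Real.exp_pos (-((M : ℝ) * x))
  linarith

theorem boxLam_nonneg (N : ℕ) (k : Site N) : 0 ≤ boxLam N k :=
  Finset.sum_nonneg fun _ _ => lam_nonneg _ _

theorem bose_box_ge (N : ℕ) {t a : ℝ} (ht : 0 < t) (ha : 0 ≤ a) (M : ℕ) :
    ∑ m ∈ Finset.range M, Real.exp (-(((m : ℝ) + 1) * t)) *
        (∑ j : Fin (2 * N + 1), Real.exp (-(((m : ℝ) + 1) * a * lam (2 * N + 1) j))) ^ 3 ≤
      ∑ k : Site N, 1 / (Real.exp (t + a * boxLam N k) - 1) := by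
  have hterm : ∀ m : ℕ, Real.exp (-(((m : ℝ) + 1) * t)) *
      (∑ j : Fin (2 * N + 1), Real.exp (-(((m : ℝ) + 1) * a * lam (2 * N + 1) j))) ^ 3 =
      ∑ k : Site N, Real.exp (-(((m : ℝ) + 1) * (t + a * boxLam N k))) := by
    intro m
    have h3 : ∀ k : Site N, Real.exp (-(((m : ℝ) + 1) * (t + a * boxLam N k))) =
        Real.exp (-(((m : ℝ) + 1) * t)) *
          ∏ j : Fin 3, Real.exp (-(((m : ℝ) + 1) * a * lam (2 * N + 1) (k j))) := by
      intro k
      rw [← Real.exp_sum, ← Real.exp_add]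
      congr 1
      unfold boxLam
      rw [Finset.sum_neg_distrib, ← Finset.mul_sum]
      ring
    simp only [h3]
    rw [← Finset.mul_sum]
    congr 1
    have h4 := Finset.prod_univ_sum (fun _ : Fin 3 => (Finset.univ : Finset (Fin (2 * N + 1))))
      (fun (_ : Fin 3) (κ : Fin (2 * N + 1)) =>
        Real.exp (-(((m : ℝ) + 1) * a * lam (2 * N + 1) κ)))
    rw [Fintype.piFinset_univ] at h4
    rw [← h4, Finset.prod_const, Finset.card_univ, Fintype.card_fin]
  calc ∑ m ∈ Finset.range M, Real.exp (-(((m : ℝ) + 1) * t)) *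
        (∑ j : Fin (2 * N + 1), Real.exp (-(((m : ℝ) + 1) * a * lam (2 * N + 1) j))) ^ 3
      = ∑ m ∈ Finset.range M, ∑ k : Site N,
          Real.exp (-(((m : ℝ) + 1) * (t + a * boxLam N k))) :=
        Finset.sum_congr rfl fun m _ => hterm m
    _ = ∑ k : Site N, ∑ m ∈ Finset.range M,
          Real.exp (-(((m : ℝ) + 1) * (t + a * boxLam N k))) := Finset.sum_comm
    _ ≤ ∑ k : Site N, 1 / (Real.exp (t + a * boxLam N k) - 1) := by
        refine Finset.sum_le_sum fun k _ => ?_
        exact geom_exp_sum_le (by have := mul_nonneg ha (boxLam_nonneg N k); linarith) M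

end Vale.Agent.H96
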