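import Vale.Agent.H96.PathEig

/-!
# A lower bound for the spectral sum of the path by a Gaussian integral
-/

namespace Vale.Agent.H96

set_option linter.unusedSectionVars false

/-- The Gaussian tail beyond `π` is dominated by an exponential tail. -/
theorem gauss_tail_le {a : ℝ} (ha : 0 < a) :
    ∫ θ in Set.Ioi Real.pi, Real.exp (-a * θ ^ 2) ≤
      Real.exp (-(a * Real.pi ^ 2)) / (a * Real.pi) := by
  have hpi := Real.pi_pos
  have hneg : -(a * Real.pi) < 0 := neg_lt_zero.mpr (mul_pos ha hpi)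
  have e := integral_exp_mul_Ioi hneg Real.pi
  have hle : ∫ θ in Set.Ioi Real.pi, Real.exp (-a * θ ^ 2) ≤
      ∫ θ in Set.Ioi Real.pi, Real.exp (-(a * Real.pi) * θ) := by
    apply MeasureTheory.setIntegral_mono_on (integrable_exp_neg_mul_sq ha).integrableOn
      (integrableOn_exp_mul_Ioi hneg _) measurableSet_Ioi
    intro θ hθ
    apply Real.exp_le_exp.mpr
    have h1 : Real.pi < θ := hθ
    have h2 : 0 < θ := lt_trans hpi h1
    have h3 : 0 ≤ a * θ * (θ - Real.pi) :=
      mul_nonneg (mul_pos ha h2).le (sub_nonneg.mpr h1.le)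
    nlinarith
  rw [e] at hle
  refine le_trans hle (le_of_eq ?_)
  rw [neg_div_neg_eq]
  congr 2
  ring

/-- The Gaussian integral over `[0, π]`. -/
theorem gauss_interval_ge {a : ℝ} (ha : 0 < a) :
    Real.sqrt (Real.pi / a) / 2 - Real.exp (-(a * Real.pi ^ 2)) / (a * Real.pi) ≤
      ∫ θ in (0 : ℝ)..Real.pi, Real.exp (-a * θ ^ 2) := by
  have hint := integrable_exp_neg_mul_sq ha
  have h4 : ∫ θ in (0 : ℝ)..Real.pi, Real.exp (-a * θ ^ 2) =
      Real.sqrt (Real.pi / a) / 2 - ∫ θ in Set.Ioi Real.pi, Real.exp (-a * θ ^ 2) := by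
    rw [← integral_gaussian_Ioi a,
      intervalIntegral.integral_Ioi_sub_Ioi hint.integrableOn Real.pi_pos.le]
  rw [h4]
  have := gauss_tail_le ha
  linarith

/-- The final arithmetic. -/
theorem gauss_arith {n a s p E : ℝ} (hn : 0 < n) (ha : 1 ≤ a) (hs : 0 < s) (hp : 3 < p)
    (hs2 : s ^ 2 = p * a) (hE0 : 0 < E) (hE : E * (a * p ^ 2 + 1) ≤ 1) :
    n * (1 - 1 / a) / (2 * s) ≤ (p / n)⁻¹ * (s / a / 2 - E / (a * p)) := by
  have ha0 : 0 < a := by linarith
  have hp0 : 0 < p := by linarith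
  have hs1 : 1 ≤ s := by
    by_contra h
    have h' : s < 1 := lt_of_not_ge h
    nlinarith
  -- the key inequality `2 s E ≤ p²`
  have key : 2 * s * E ≤ p ^ 2 := by
    have h1 : 2 * s ≤ p ^ 2 * (a * p ^ 2 + 1) := by
      have : s ≤ s ^ 2 := by nlinarith
      have h2 : (1 : ℝ) ≤ p ^ 2 := by nlinarith
      have h3 : p * a ≤ p ^ 2 * (a * p ^ 2) := by
        have : p * a * 1 ≤ p * a * (p * p ^ 2) := by
          apply mul_le_mul_of_nonneg_left _ (by positivity)
          nlinarith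
        nlinarith
      nlinarith
    calc 2 * s * E ≤ p ^ 2 * (a * p ^ 2 + 1) * E := by
          exact mul_le_mul_of_nonneg_right h1 hE0.le
      _ = p ^ 2 * (E * (a * p ^ 2 + 1)) := by ring
      _ ≤ p ^ 2 * 1 := by
          apply mul_le_mul_of_nonneg_left hE (by positivity)
      _ = p ^ 2 := by ring
  have e1 : n * (1 - 1 / a) / (2 * s) = n / (2 * s) - n / (2 * s * a) := by
    field_simp
  have e2 : (p / n)⁻¹ * (s / a / 2 - E / (a * p)) = n / (2 * s) - n * E / (a * p ^ 2) := by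
    have h1 : (p / n)⁻¹ * (s / a / 2) = n / (2 * s) := by
      rw [inv_div, div_mul_div_comm, div_eq_div_iff (by positivity) (by positivity)]
      have : a * p = s ^ 2 := by rw [hs2]; ring
      field_simp
      nlinarith
    have h2 : (p / n)⁻¹ * (E / (a * p)) = n * E / (a * p ^ 2) := by
      rw [inv_div]
      field_simp
    rw [mul_sub, h1, h2]
  rw [e1, e2]
  have h3 : n * E / (a * p ^ 2) ≤ n / (2 * s * a) := by
    rw [div_le_div_iff₀ (by positivity) (by positivity)]
    have : n * a * (2 * s * E) ≤ n * a * p ^ 2 :=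
      mul_le_mul_of_nonneg_left key (by positivity)
    nlinarith
  linarith

theorem gauss_sum_ge {n : ℕ} (hn : 0 < n) {a : ℝ} (ha : 1 ≤ a) :
    (n : ℝ) * (1 - 1 / a) / (2 * Real.sqrt (Real.pi * a)) ≤
      ∑ k : Fin n, Real.exp (-(a * lam n k)) := by
  have ha0 : 0 < a := by linarith
  have hn0 : (0 : ℝ) < n := by exact_mod_cast hn
  have hpi := Real.pi_pos
  have hc0 : 0 < Real.pi / n := by positivity
  -- step 1: termwise comparison with the Gaussian profile
  have h1 : ∀ k : ℕ, Real.exp (-a * (Real.pi / n * k) ^ 2) ≤ Real.exp (-(a * lam n k)) := by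
    intro k
    apply Real.exp_le_exp.mpr
    have hcos := Real.one_sub_sq_div_two_le_cos (x := Real.pi * k / n)
    have e : Real.pi / n * k = Real.pi * k / n := by ring
    unfold lam
    rw [e]
    nlinarith
  -- step 2: sum versus integral
  have hanti : AntitoneOn (fun x : ℝ => Real.exp (-a * (Real.pi / n * x) ^ 2))
      (Set.Icc (0 : ℝ) (0 + (n : ℕ))) := by
    intro x hx y _ hxy
    apply Real.exp_le_exp.mpr
    have hx0 : 0 ≤ x := hx.1
    have h : (Real.pi / n * x) ^ 2 ≤ (Real.pi / n * y) ^ 2 := by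
      apply pow_le_pow_left₀ (by positivity)
      exact mul_le_mul_of_nonneg_left hxy hc0.le
    nlinarith
  have h2 := hanti.integral_le_sum
  simp only [zero_add] at h2
  -- step 3: substitution
  have h3 : ∫ x in (0 : ℝ)..(n : ℝ), Real.exp (-a * (Real.pi / n * x) ^ 2) =
      (Real.pi / n)⁻¹ * ∫ θ in (0 : ℝ)..Real.pi, Real.exp (-a * θ ^ 2) := by
    have h := intervalIntegral.integral_comp_mul_left (a := (0 : ℝ)) (b := (n : ℝ))
      (fun θ : ℝ => Real.exp (-a * θ ^ 2)) hc0.ne'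
    have e : Real.pi / n * (n : ℝ) = Real.pi := by field_simp
    rw [mul_zero, e, smul_eq_mul] at h
    exact h
  -- step 4: the Gaussian integral
  have h4 := gauss_interval_ge ha0
  -- step 5: arithmetic
  have hs0 : 0 < Real.sqrt (Real.pi * a) := Real.sqrt_pos.mpr (by positivity)
  have hs2 : Real.sqrt (Real.pi * a) ^ 2 = Real.pi * a := Real.sq_sqrt (by positivity)
  have hsq : Real.sqrt (Real.pi / a) = Real.sqrt (Real.pi * a) / a := by
    have e : Real.pi / a = Real.pi * a / a ^ 2 := by field_simp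
    rw [e, Real.sqrt_div' _ (sq_nonneg a), Real.sqrt_sq ha0.le]
  have hE0 : 0 < Real.exp (-(a * Real.pi ^ 2)) := Real.exp_pos _
  have hE : Real.exp (-(a * Real.pi ^ 2)) * (a * Real.pi ^ 2 + 1) ≤ 1 := by
    have h := Real.add_one_le_exp (a * Real.pi ^ 2)
    have h' : Real.exp (-(a * Real.pi ^ 2)) * Real.exp (a * Real.pi ^ 2) = 1 := by
      rw [← Real.exp_add]
      simp
    calc Real.exp (-(a * Real.pi ^ 2)) * (a * Real.pi ^ 2 + 1)
        ≤ Real.exp (-(a * Real.pi ^ 2)) * Real.exp (a * Real.pi ^ 2) :=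
          mul_le_mul_of_nonneg_left h hE0.le
      _ = 1 := h'
  have h5 := gauss_arith hn0 ha hs0 Real.pi_gt_three hs2 hE0 hE
  rw [← hsq] at h5
  calc (n : ℝ) * (1 - 1 / a) / (2 * Real.sqrt (Real.pi * a))
      ≤ (Real.pi / n)⁻¹ * (Real.sqrt (Real.pi / a) / 2 -
          Real.exp (-(a * Real.pi ^ 2)) / (a * Real.pi)) := h5
    _ ≤ (Real.pi / n)⁻¹ * ∫ θ in (0 : ℝ)..Real.pi, Real.exp (-a * θ ^ 2) :=
        mul_le_mul_of_nonneg_left h4 (inv_nonneg.mpr hc0.le)
    _ = ∫ x in (0 : ℝ)..(n : ℝ), Real.exp (-a * (Real.pi / n * x) ^ 2) := h3.symm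
    _ ≤ ∑ i ∈ Finset.range n, Real.exp (-a * (Real.pi / n * (i : ℝ)) ^ 2) := h2
    _ ≤ ∑ i ∈ Finset.range n, Real.exp (-(a * lam n i)) :=
        Finset.sum_le_sum (fun i _ => h1 i)
    _ = ∑ k : Fin n, Real.exp (-(a * lam n k)) :=
        (Fin.sum_univ_eq_sum_range (fun i => Real.exp (-(a * lam n i))) n).symm

end Vale.Agent.H96
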