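import Mathlib

/-!
# The series `∑ 1 / (n+1)^(3/2)`
-/

namespace Vale.Agent.H96

set_option linter.unusedSectionVars false

theorem zeta32_summable : Summable (fun n : ℕ => 1 / ((n : ℝ) + 1) ^ (3 / 2 : ℝ)) := by
  have h : Summable (fun n : ℕ => 1 / (n : ℝ) ^ (3 / 2 : ℝ)) :=
    Real.summable_one_div_nat_rpow.mpr (by norm_num)
  have h2 := (summable_nat_add_iff 1).mpr h
  refine h2.congr ?_
  intro n
  simp [Nat.cast_succ]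

theorem zeta32_term_pos (n : ℕ) : 0 < 1 / ((n : ℝ) + 1) ^ (3 / 2 : ℝ) := by
  have h : (0 : ℝ) < (n : ℝ) + 1 := by positivity
  have h2 : (0 : ℝ) < ((n : ℝ) + 1) ^ (3 / 2 : ℝ) := Real.rpow_pos_of_pos h _
  positivity

theorem zeta32_pos : 0 < ∑' n : ℕ, 1 / ((n : ℝ) + 1) ^ (3 / 2 : ℝ) :=
  zeta32_summable.tsum_pos (fun n => (zeta32_term_pos n).le) 0 (zeta32_term_pos 0)

theorem zeta32_approx {ε : ℝ} (hε : 0 < ε) :
    ∃ M : ℕ, (1 - ε) * (∑' n : ℕ, 1 / ((n : ℝ) + 1) ^ (3 / 2 : ℝ)) ≤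
      ∑ m ∈ Finset.range M, 1 / ((m : ℝ) + 1) ^ (3 / 2 : ℝ) := by
  have hpos := zeta32_pos
  have hlt : (1 - ε) * (∑' n : ℕ, 1 / ((n : ℝ) + 1) ^ (3 / 2 : ℝ)) <
      ∑' n : ℕ, 1 / ((n : ℝ) + 1) ^ (3 / 2 : ℝ) := by nlinarith
  have ht := zeta32_summable.hasSum.tendsto_sum_nat
  have hev := ht.eventually (lt_mem_nhds hlt)
  obtain ⟨M, hM⟩ := hev.exists
  exact ⟨M, hM.le⟩

end Vale.Agent.H96
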