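import Vale.Agent.H96.Sharp.FiniteVol
import Vale.Agent.H96.Sharp.GaussSum
import Vale.Agent.H96.Sharp.BoseBox
import Vale.Agent.H96.Sharp.ZetaNum

/-!
# From the finite-volume inequality to the sharp constant
-/

open Matrix Filter Topology

namespace Vale.Agent.H96

set_option linter.unusedSectionVars false

theorem sqrt_cube_eq_rpow {x : ℝ} (hx : 0 ≤ x) : Real.sqrt x ^ 3 = x ^ (3 / 2 : ℝ) := by
  rw [Real.sqrt_eq_rpow, ← Real.rpow_natCast, ← Real.rpow_mul hx]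
  norm_num

theorem cube_aux {q ε : ℝ} (hε0 : 0 < ε) (hε1 : ε < 1) (hq : q = 1 - ε / 8) :
    q ^ 3 ≤ ((1 - ε / 24) * Real.sqrt q) ^ 3 := by
  have hq0 : 0 < q := by rw [hq]; linarith
  have hq1 : q ≤ 1 := by rw [hq]; linarith
  have hsq1 : q ≤ Real.sqrt q := by
    rw [Real.le_sqrt hq0.le hq0.le]
    nlinarith
  have hb := one_add_mul_le_pow (show (-2 : ℝ) ≤ -(ε / 24) by linarith) 3
  have hb' : q ≤ (1 - ε / 24) ^ 3 := by
    have e : (1 : ℝ) + ((3 : ℕ) : ℝ) * -(ε / 24) = q := by rw [hq]; push_cast; ring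
    have e2 : (1 : ℝ) + -(ε / 24) = 1 - ε / 24 := by ring
    rw [e, e2] at hb
    exact hb
  have hs3 : q ^ 2 ≤ Real.sqrt q ^ 3 := by
    have h1 : Real.sqrt q ^ 2 = q := Real.sq_sqrt hq0.le
    have h2 : Real.sqrt q ^ 3 = q * Real.sqrt q := by
      rw [pow_succ, h1]
    rw [h2, sq]
    exact mul_le_mul_of_nonneg_left hsq1 hq0.le
  have hx0 : 0 < 1 - ε / 24 := by linarith
  rw [mul_pow]
  calc q ^ 3 = q * q ^ 2 := by ring
    _ ≤ (1 - ε / 24) ^ 3 * Real.sqrt q ^ 3 :=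
        mul_le_mul hb' hs3 (by positivity) (by positivity)

theorem cube_div_aux {n u W r q : ℝ} (hn : 0 < n) (hu : 0 < u) (hW : 0 < W)
    (hr : q ^ 3 ≤ r ^ 3) :
    n ^ 3 * q ^ 3 / W ^ 3 * (1 / u ^ 3) ≤ (n * r / (u * W)) ^ 3 := by
  have eL : n ^ 3 * q ^ 3 / W ^ 3 * (1 / u ^ 3) = n ^ 3 * q ^ 3 / (u * W) ^ 3 := by
    field_simp
  have eR : (n * r / (u * W)) ^ 3 = n ^ 3 * r ^ 3 / (u * W) ^ 3 := by
    rw [div_pow, mul_pow]
  rw [eL, eR]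
  exact div_le_div_of_nonneg_right (mul_le_mul_of_nonneg_left hr (by positivity)) (by positivity)

/-- Lower bound for one Gaussian spectral sum. -/
theorem gauss_term_lower (N m : ℕ) {ε q B a : ℝ} (hε0 : 0 < ε) (hε1 : ε < 1)
    (hq : q = 1 - ε / 8) (hB : 24 / ε ≤ B) (haB : B ≤ a) (haBq : a * q ≤ B) :
    ((2 * N + 1 : ℕ) : ℝ) ^ 3 * q ^ 3 / (2 * Real.sqrt (Real.pi * B)) ^ 3 *
        (1 / Real.sqrt ((m : ℝ) + 1) ^ 3) ≤
      (∑ j : Fin (2 * N + 1), Real.exp (-(((m : ℝ) + 1) * a * lam (2 * N + 1) j))) ^ 3 := by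
  have hq0 : 0 < q := by rw [hq]; linarith
  have h24 : (24 : ℝ) < 24 / ε := by
    rw [lt_div_iff₀ hε0]; nlinarith
  have hB0 : 0 < B := by linarith
  have ha0 : 0 < a := by linarith
  have hm0 : (0 : ℝ) ≤ m := Nat.cast_nonneg m
  have hm1 : (0 : ℝ) < (m : ℝ) + 1 := by linarith
  have hn0 : (0 : ℝ) < ((2 * N + 1 : ℕ) : ℝ) := by positivity
  have ha'a : a ≤ ((m : ℝ) + 1) * a := by
    have : 0 ≤ (m : ℝ) * a := mul_nonneg hm0 ha0.le
    linarith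
  have ha'1 : 1 ≤ ((m : ℝ) + 1) * a := by linarith
  have ha'0 : 0 < ((m : ℝ) + 1) * a := by linarith
  have hg := gauss_sum_ge (n := 2 * N + 1) (by omega) ha'1
  have hsq : 0 < Real.sqrt q := Real.sqrt_pos.mpr hq0
  have hx : 1 / (((m : ℝ) + 1) * a) ≤ ε / 24 := by
    rw [div_le_iff₀ ha'0]
    have h1 : 24 / ε ≤ ((m : ℝ) + 1) * a := by linarith
    rw [div_le_iff₀ hε0] at h1
    linarith
  have hx0 : 0 < 1 - ε / 24 := by linarith
  have hsqrt : Real.sqrt (Real.pi * (((m : ℝ) + 1) * a)) * Real.sqrt q ≤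
      Real.sqrt ((m : ℝ) + 1) * Real.sqrt (Real.pi * B) := by
    rw [← Real.sqrt_mul (by positivity), ← Real.sqrt_mul hm1.le]
    apply Real.sqrt_le_sqrt
    calc Real.pi * (((m : ℝ) + 1) * a) * q = Real.pi * ((m : ℝ) + 1) * (a * q) := by ring
      _ ≤ Real.pi * ((m : ℝ) + 1) * B := mul_le_mul_of_nonneg_left haBq (by positivity)
      _ = ((m : ℝ) + 1) * (Real.pi * B) := by ring
  have hu0 : 0 < Real.sqrt ((m : ℝ) + 1) := Real.sqrt_pos.mpr hm1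
  have hW0 : 0 < 2 * Real.sqrt (Real.pi * B) := by
    have : 0 < Real.sqrt (Real.pi * B) := Real.sqrt_pos.mpr (mul_pos Real.pi_pos hB0)
    linarith
  have hsπ : 0 < Real.sqrt (Real.pi * (((m : ℝ) + 1) * a)) :=
    Real.sqrt_pos.mpr (mul_pos Real.pi_pos ha'0)
  have hG : ((2 * N + 1 : ℕ) : ℝ) * ((1 - ε / 24) * Real.sqrt q) /
      (Real.sqrt ((m : ℝ) + 1) * (2 * Real.sqrt (Real.pi * B))) ≤
      ∑ j : Fin (2 * N + 1), Real.exp (-(((m : ℝ) + 1) * a * lam (2 * N + 1) j)) := by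
    refine le_trans ?_ hg
    rw [div_le_div_iff₀ (mul_pos hu0 hW0) (by positivity)]
    have h1 : 2 * Real.sqrt (Real.pi * (((m : ℝ) + 1) * a)) * Real.sqrt q ≤
        Real.sqrt ((m : ℝ) + 1) * (2 * Real.sqrt (Real.pi * B)) := by
      linarith
    have h2 : ((2 * N + 1 : ℕ) : ℝ) * (1 - ε / 24) ≤
        ((2 * N + 1 : ℕ) : ℝ) * (1 - 1 / (((m : ℝ) + 1) * a)) :=
      mul_le_mul_of_nonneg_left (by linarith) hn0.le
    calc ((2 * N + 1 : ℕ) : ℝ) * ((1 - ε / 24) * Real.sqrt q) *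
          (2 * Real.sqrt (Real.pi * (((m : ℝ) + 1) * a)))
        = ((2 * N + 1 : ℕ) : ℝ) * (1 - ε / 24) *
          (2 * Real.sqrt (Real.pi * (((m : ℝ) + 1) * a)) * Real.sqrt q) := by ring
      _ ≤ ((2 * N + 1 : ℕ) : ℝ) * (1 - ε / 24) *
          (Real.sqrt ((m : ℝ) + 1) * (2 * Real.sqrt (Real.pi * B))) :=
          mul_le_mul_of_nonneg_left h1 (mul_nonneg hn0.le hx0.le)
      _ ≤ ((2 * N + 1 : ℕ) : ℝ) * (1 - 1 / (((m : ℝ) + 1) * a)) *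
          (Real.sqrt ((m : ℝ) + 1) * (2 * Real.sqrt (Real.pi * B))) :=
          mul_le_mul_of_nonneg_right h2 (mul_pos hu0 hW0).le
  have hG3 := pow_le_pow_left₀ (by positivity) hG 3
  refine le_trans ?_ hG3
  have hr3 := cube_aux hε0 hε1 hq
  exact cube_div_aux hn0 hu0 hW0 hr3

/-- The analytic core: a lower bound for the density of spin deviations from the Bose sum. -/
theorem delta_lower (N : ℕ) {d : ℕ} (hd : 1 ≤ d) {ε : ℝ} (hε0 : 0 < ε) (hε1 : ε < 1) {M : ℕ}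
    {ζ : ℝ} (hζ : 0 ≤ ζ)
    (hM : (1 - ε / 8) * ζ ≤ ∑ m ∈ Finset.range M, 1 / Real.sqrt ((m : ℝ) + 1) ^ 3)
    {β t δ : ℝ} (hβ : 24 / ε ≤ β * ((d : ℝ) / 2)) (ht0 : 0 < t)
    (ht : t ≤ ε / (8 * ((M : ℝ) + 1))) (hδ0 : 0 ≤ δ) (hδ1 : 16 * δ < ε * (d : ℝ) / 8)
    (hmain : ((d : ℝ) - 16 * δ) * ∑ k : Site N,
        1 / (Real.exp (t + β / 2 * (d : ℝ) ^ 2 * boxLam N k / ((d : ℝ) - 16 * δ)) - 1) ≤
      (d : ℝ) * δ * (Fintype.card (Site N) : ℝ)) :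
    (1 - ε) * ζ / (2 * Real.sqrt (Real.pi * (β * ((d : ℝ) / 2)))) ^ 3 ≤ δ := by
  have hd' : (1 : ℝ) ≤ d := by exact_mod_cast hd
  have hd0 : (0 : ℝ) < d := by linarith
  obtain ⟨q, hq⟩ : ∃ q : ℝ, q = 1 - ε / 8 := ⟨_, rfl⟩
  have hq0 : 0 < q := by rw [hq]; linarith
  have hq1 : q ≤ 1 := by rw [hq]; linarith
  obtain ⟨B, hB⟩ : ∃ B : ℝ, B = β * ((d : ℝ) / 2) := ⟨_, rfl⟩
  rw [← hB] at hβ ⊢
  rw [← hq] at hM
  have h24 : (24 : ℝ) < 24 / ε := by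
    rw [lt_div_iff₀ hε0]; nlinarith
  have hB0 : 0 < B := by linarith
  have hβ0 : 0 < β := by
    by_contra hneg
    push Not at hneg
    have : B ≤ 0 := by rw [hB]; exact mul_nonpos_of_nonpos_of_nonneg hneg (by positivity)
    linarith
  have hDq : (d : ℝ) * q < (d : ℝ) - 16 * δ := by
    rw [hq]; nlinarith
  have hD0 : 0 < (d : ℝ) - 16 * δ := lt_trans (mul_pos hd0 hq0) hDq
  have hDd : (d : ℝ) - 16 * δ ≤ d := by linarith
  obtain ⟨a, ha⟩ : ∃ a : ℝ, a = β / 2 * (d : ℝ) ^ 2 / ((d : ℝ) - 16 * δ) := ⟨_, rfl⟩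
  have haB : B ≤ a := by
    rw [ha, hB, le_div_iff₀ hD0]
    have : β * ((d : ℝ) / 2) * ((d : ℝ) - 16 * δ) ≤ β * ((d : ℝ) / 2) * d :=
      mul_le_mul_of_nonneg_left hDd (by positivity)
    calc β * ((d : ℝ) / 2) * ((d : ℝ) - 16 * δ) ≤ β * ((d : ℝ) / 2) * d := this
      _ = β / 2 * (d : ℝ) ^ 2 := by ring
  have haBq : a * q ≤ B := by
    rw [ha, hB, div_mul_eq_mul_div, div_le_iff₀ hD0]
    have h1 : β / 2 * (d : ℝ) * ((d : ℝ) * q) ≤ β / 2 * (d : ℝ) * ((d : ℝ) - 16 * δ) :=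
      mul_le_mul_of_nonneg_left hDq.le (by positivity)
    calc β / 2 * (d : ℝ) ^ 2 * q = β / 2 * (d : ℝ) * ((d : ℝ) * q) := by ring
      _ ≤ β / 2 * (d : ℝ) * ((d : ℝ) - 16 * δ) := h1
      _ = β * ((d : ℝ) / 2) * ((d : ℝ) - 16 * δ) := by ring
  have ha0 : 0 < a := lt_of_lt_of_le hB0 haB
  have hexp : ∀ k : Site N, t + β / 2 * (d : ℝ) ^ 2 * boxLam N k / ((d : ℝ) - 16 * δ) =
      t + a * boxLam N k := by
    intro k
    rw [ha]
    ring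
  have hmain' : ((d : ℝ) - 16 * δ) * ∑ k : Site N,
      1 / (Real.exp (t + a * boxLam N k) - 1) ≤ (d : ℝ) * δ * (Fintype.card (Site N) : ℝ) := by
    refine le_trans (le_of_eq ?_) hmain
    congr 1
    exact Finset.sum_congr rfl fun k _ => by rw [hexp k]
  have hbose := bose_box_ge N ht0 ha0.le M
  obtain ⟨n, hn⟩ : ∃ n : ℝ, n = ((2 * N + 1 : ℕ) : ℝ) := ⟨_, rfl⟩
  have hn0 : 0 < n := by rw [hn]; positivity
  obtain ⟨W, hW⟩ : ∃ W : ℝ, W = 2 * Real.sqrt (Real.pi * B) := ⟨_, rfl⟩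
  rw [← hW]
  have hW0 : 0 < W := by
    rw [hW]
    have : 0 < Real.sqrt (Real.pi * B) := Real.sqrt_pos.mpr (mul_pos Real.pi_pos hB0)
    linarith
  -- the bound for a single term
  have hterm : ∀ m ∈ Finset.range M, n ^ 3 * q ^ 4 / W ^ 3 * (1 / Real.sqrt ((m : ℝ) + 1) ^ 3) ≤
      Real.exp (-(((m : ℝ) + 1) * t)) *
        (∑ j : Fin (2 * N + 1), Real.exp (-(((m : ℝ) + 1) * a * lam (2 * N + 1) j))) ^ 3 := by
    intro m hm
    rw [Finset.mem_range] at hm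
    have hm0 : (0 : ℝ) ≤ m := Nat.cast_nonneg m
    have hmM : ((m : ℝ) + 1) ≤ (M : ℝ) := by exact_mod_cast hm
    have hmt : ((m : ℝ) + 1) * t ≤ ε / 8 := by
      have h1 : ((m : ℝ) + 1) * t ≤ ((M : ℝ) + 1) * (ε / (8 * ((M : ℝ) + 1))) :=
        mul_le_mul (by linarith) ht ht0.le (by positivity)
      have h2 : ((M : ℝ) + 1) * (ε / (8 * ((M : ℝ) + 1))) = ε / 8 := by
        field_simp
      linarith
    have hexpq : q ≤ Real.exp (-(((m : ℝ) + 1) * t)) := by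
      have := Real.add_one_le_exp (-(((m : ℝ) + 1) * t))
      rw [hq]; linarith
    have hgt := gauss_term_lower N m hε0 hε1 hq hβ haB haBq
    rw [← hn, ← hW] at hgt
    have hsum0 : 0 ≤ (∑ j : Fin (2 * N + 1),
        Real.exp (-(((m : ℝ) + 1) * a * lam (2 * N + 1) j))) ^ 3 :=
      pow_nonneg (Finset.sum_nonneg fun j _ => (Real.exp_pos _).le) 3
    calc n ^ 3 * q ^ 4 / W ^ 3 * (1 / Real.sqrt ((m : ℝ) + 1) ^ 3)
        = q * (n ^ 3 * q ^ 3 / W ^ 3 * (1 / Real.sqrt ((m : ℝ) + 1) ^ 3)) := by ring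
      _ ≤ q * (∑ j : Fin (2 * N + 1),
            Real.exp (-(((m : ℝ) + 1) * a * lam (2 * N + 1) j))) ^ 3 :=
          mul_le_mul_of_nonneg_left hgt hq0.le
      _ ≤ _ := mul_le_mul_of_nonneg_right hexpq hsum0
  -- summation
  have hS : n ^ 3 * q ^ 5 * ζ / W ^ 3 ≤
      ∑ k : Site N, 1 / (Real.exp (t + a * boxLam N k) - 1) := by
    refine le_trans ?_ hbose
    refine le_trans ?_ (Finset.sum_le_sum hterm)
    rw [← Finset.mul_sum]
    have h1 : n ^ 3 * q ^ 4 / W ^ 3 * (q * ζ) ≤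
        n ^ 3 * q ^ 4 / W ^ 3 * ∑ m ∈ Finset.range M, 1 / Real.sqrt ((m : ℝ) + 1) ^ 3 :=
      mul_le_mul_of_nonneg_left hM (by positivity)
    refine le_trans (le_of_eq ?_) h1
    ring
  have hcard : (Fintype.card (Site N) : ℝ) = n ^ 3 := by
    rw [card_site, hn]
    push_cast
    ring
  rw [hcard] at hmain'
  have h3 : 0 ≤ n ^ 3 * q ^ 5 * ζ / W ^ 3 := by positivity
  have h2 : (d : ℝ) * q * (n ^ 3 * q ^ 5 * ζ / W ^ 3) ≤ (d : ℝ) * δ * n ^ 3 := by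
    refine le_trans ?_ hmain'
    calc (d : ℝ) * q * (n ^ 3 * q ^ 5 * ζ / W ^ 3)
        ≤ ((d : ℝ) - 16 * δ) * (n ^ 3 * q ^ 5 * ζ / W ^ 3) :=
          mul_le_mul_of_nonneg_right hDq.le h3
      _ ≤ ((d : ℝ) - 16 * δ) * ∑ k : Site N, 1 / (Real.exp (t + a * boxLam N k) - 1) :=
          mul_le_mul_of_nonneg_left hS hD0.le
  have h4 : q ^ 6 * ζ / W ^ 3 ≤ δ := by
    have h5 : (d : ℝ) * n ^ 3 * (q ^ 6 * ζ / W ^ 3) ≤ (d : ℝ) * n ^ 3 * δ := by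
      have e : (d : ℝ) * n ^ 3 * (q ^ 6 * ζ / W ^ 3) =
          (d : ℝ) * q * (n ^ 3 * q ^ 5 * ζ / W ^ 3) := by ring
      rw [e]
      linarith
    exact le_of_mul_le_mul_left h5 (by positivity)
  refine le_trans ?_ h4
  have hq6 : 1 - ε ≤ q ^ 6 := by
    have hb := one_add_mul_le_pow (show (-2 : ℝ) ≤ -(ε / 8) by linarith) 6
    have e : (1 : ℝ) + -(ε / 8) = q := by rw [hq]; ring
    rw [e] at hb
    push_cast at hb
    linarith
  apply div_le_div_of_nonneg_right _ (by positivity)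
  exact mul_le_mul_of_nonneg_right hq6 hζ

end Vale.Agent.H96
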