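import Vale.Agent.H96.Sharp.Asymp

/-!
# The sharp one-sided Bloch law
-/

open Matrix Filter Topology

namespace Vale.Agent.H96

set_option linter.unusedSectionVars false

/-- The value `ζ(3/2) = ∑_{n ≥ 1} n^{-3/2}`. -/
noncomputable def zeta32 : ℝ := ∑' n : ℕ, 1 / ((n : ℝ) + 1) ^ (3 / 2 : ℝ)

theorem bloch_const_eq {β S : ℝ} (hβ : 0 ≤ β) (hS : 0 ≤ S) :
    (2 * Real.sqrt (Real.pi * (β * S))) ^ 3 =
      8 * Real.pi ^ (3 / 2 : ℝ) * S ^ (3 / 2 : ℝ) * β ^ (3 / 2 : ℝ) := by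
  rw [Real.sqrt_mul Real.pi_pos.le, Real.sqrt_mul hβ, ← sqrt_cube_eq_rpow Real.pi_pos.le,
    ← sqrt_cube_eq_rpow hS, ← sqrt_cube_eq_rpow hβ]
  ring

/-- Finite-volume form of the sharp bound, with the constant written with square roots. -/
theorem bloch_sharp_fin (d : ℕ) (hd : 1 ≤ d) {ε : ℝ} (hε0 : 0 < ε) (hε1 : ε < 1) :
    ∃ β₀ : ℝ, 0 < β₀ ∧ ∀ β : ℝ, β₀ ≤ β → ∃ h₀ : ℝ, 0 < h₀ ∧ ∀ N : ℕ, ∀ t : ℝ, 0 < t → t ≤ h₀ →
      pressure d N β t - pressure d N β 0 ≤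
        t * ((d : ℝ) / 2 -
          (1 - ε) * zeta32 / (2 * Real.sqrt (Real.pi * (β * ((d : ℝ) / 2)))) ^ 3) := by
  have hd' : (1 : ℝ) ≤ d := by exact_mod_cast hd
  have hd0 : (0 : ℝ) < d := by linarith
  have hζ0 : 0 < zeta32 := zeta32_pos
  obtain ⟨M, hM⟩ := zeta32_approx (ε := ε / 8) (by positivity)
  have hM' : (1 - ε / 8) * zeta32 ≤ ∑ m ∈ Finset.range M, 1 / Real.sqrt ((m : ℝ) + 1) ^ 3 := by
    refine le_trans hM (le_of_eq ?_)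
    refine Finset.sum_congr rfl fun m _ => ?_
    rw [sqrt_cube_eq_rpow (by positivity)]
  obtain ⟨Y, hY⟩ : ∃ Y : ℝ, Y = 128 * zeta32 / (ε * d) := ⟨_, rfl⟩
  have hY0 : 0 < Y := by rw [hY]; positivity
  obtain ⟨S, hS⟩ : ∃ S : ℝ, S = (d : ℝ) / 2 := ⟨_, rfl⟩
  have hS0 : 0 < S := by rw [hS]; positivity
  rw [← hS]
  refine ⟨(24 / ε + (1 + Y) ^ 2) / S, by positivity, fun β hβ => ?_⟩
  have hB : 24 / ε + (1 + Y) ^ 2 ≤ β * S := by
    rw [div_le_iff₀ hS0] at hβ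
    exact hβ
  have h24 : (0 : ℝ) < 24 / ε := by positivity
  have hB0 : 0 < β * S := by nlinarith [sq_nonneg (1 + Y)]
  have hβ0 : 0 < β := by
    by_contra hneg
    push Not at hneg
    have : β * S ≤ 0 := mul_nonpos_of_nonpos_of_nonneg hneg hS0.le
    linarith
  obtain ⟨W, hW⟩ : ∃ W : ℝ, W = 2 * Real.sqrt (Real.pi * (β * S)) := ⟨_, rfl⟩
  rw [← hW]
  have hWY : 1 + Y ≤ W := by
    have h1 : (1 + Y) ^ 2 ≤ Real.pi * (β * S) := by
      have hpi : (1 : ℝ) ≤ Real.pi := by linarith [Real.pi_gt_three]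
      nlinarith
    have h2 : 1 + Y ≤ Real.sqrt (Real.pi * (β * S)) := by
      rw [Real.le_sqrt (by positivity) (by positivity)]
      exact h1
    have h3 : 0 ≤ Real.sqrt (Real.pi * (β * S)) := Real.sqrt_nonneg _
    rw [hW]; linarith
  have hW1 : 1 ≤ W := by linarith
  have hW0 : 0 < W := by linarith
  have hWcube : W ≤ W ^ 3 := by
    have : 1 ≤ W ^ 2 := by nlinarith
    nlinarith
  -- the target deficit is below the threshold
  have hDle : (1 - ε) * zeta32 / W ^ 3 ≤ ε * d / 128 := by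
    rw [div_le_iff₀ (by positivity)]
    have h1 : Y * (ε * d) = 128 * zeta32 := by
      rw [hY]; field_simp
    have h2 : (1 - ε) * zeta32 ≤ zeta32 := by nlinarith
    have h3 : ε * d / 128 * Y ≤ ε * d / 128 * W ^ 3 :=
      mul_le_mul_of_nonneg_left (by linarith) (by positivity)
    nlinarith
  have ht0 : 0 < ε / (8 * ((M : ℝ) + 1)) := by positivity
  refine ⟨ε / (8 * ((M : ℝ) + 1)) / β, by positivity, fun N t ht htle => ?_⟩
  have hh0 : 0 < ε / (8 * ((M : ℝ) + 1)) / β := by positivity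
  obtain ⟨δ, hδ0, hP, hmain⟩ := finite_vol_sharp d N hβ0 hh0
  have hbh : β * (ε / (8 * ((M : ℝ) + 1)) / β) = ε / (8 * ((M : ℝ) + 1)) := by
    field_simp
  rw [hbh] at hmain
  have hδ : (1 - ε) * zeta32 / W ^ 3 ≤ δ := by
    by_cases h16 : 16 * δ < ε * (d : ℝ) / 8
    · have h16' : 16 * δ < (d : ℝ) := by nlinarith
      have hm := hmain h16'
      have hβS : 24 / ε ≤ β * ((d : ℝ) / 2) := by
        rw [← hS]
        nlinarith [sq_nonneg (1 + Y)]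
      have := delta_lower N hd hε0 hε1 hζ0.le hM' hβS ht0 (le_refl _) hδ0 h16 hm
      rw [← hS, ← hW] at this
      exact this
    · push Not at h16
      linarith
  have hP2 : pressure d N β (ε / (8 * ((M : ℝ) + 1)) / β) - pressure d N β 0 ≤
      ε / (8 * ((M : ℝ) + 1)) / β * (S - (1 - ε) * zeta32 / W ^ 3) := by
    refine le_trans hP ?_
    rw [← hS]
    exact mul_le_mul_of_nonneg_left (by linarith) hh0.le
  have hchord := pressure_chord d N hβ0 hh0 ht htle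
  refine le_trans hchord ?_
  have h5 : t / (ε / (8 * ((M : ℝ) + 1)) / β) *
      (pressure d N β (ε / (8 * ((M : ℝ) + 1)) / β) - pressure d N β 0) ≤
      t / (ε / (8 * ((M : ℝ) + 1)) / β) *
        (ε / (8 * ((M : ℝ) + 1)) / β * (S - (1 - ε) * zeta32 / W ^ 3)) :=
    mul_le_mul_of_nonneg_left hP2 (div_pos ht hh0).le
  refine le_trans h5 (le_of_eq ?_)
  field_simp

/-- The sharp one-sided Bloch law: finite-volume form and the statement for the spontaneous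
magnetization. -/
theorem bloch_sharp (d : ℕ) (hd : 1 ≤ d) (ε : ℝ) (hε : 0 < ε) :
    ∃ β₀ : ℝ, 0 < β₀ ∧ ∀ β : ℝ, β₀ ≤ β →
      (∃ h₀ : ℝ, 0 < h₀ ∧ ∀ N : ℕ, ∀ t : ℝ, 0 < t → t ≤ h₀ →
        pressure d N β t - pressure d N β 0 ≤
          t * ((d : ℝ) / 2 - (1 - ε) * zeta32 /
            (8 * Real.pi ^ (3 / 2 : ℝ) * ((d : ℝ) / 2) ^ (3 / 2 : ℝ) * β ^ (3 / 2 : ℝ)))) ∧
      (∀ p : ℝ → ℝ, (∀ h : ℝ, Tendsto (fun N : ℕ => pressure d N β h) atTop (𝓝 (p h))) →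
        ∀ m : ℝ, HasDerivWithinAt p m (Set.Ioi 0) 0 →
          m ≤ (d : ℝ) / 2 - (1 - ε) * zeta32 /
            (8 * Real.pi ^ (3 / 2 : ℝ) * ((d : ℝ) / 2) ^ (3 / 2 : ℝ) * β ^ (3 / 2 : ℝ))) := by
  have hd' : (1 : ℝ) ≤ d := by exact_mod_cast hd
  have hζ0 : 0 < zeta32 := zeta32_pos
  -- reduce to ε < 1
  obtain ⟨ε', hε'0, hε'1, hε'le⟩ : ∃ ε' : ℝ, 0 < ε' ∧ ε' < 1 ∧ ε' ≤ ε := by
    refine ⟨min ε (1 / 2), lt_min hε (by norm_num), ?_, min_le_left _ _⟩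
    exact lt_of_le_of_lt (min_le_right _ _) (by norm_num)
  obtain ⟨β₀, hβ₀, hfin⟩ := bloch_sharp_fin d hd hε'0 hε'1
  refine ⟨β₀, hβ₀, fun β hβ => ?_⟩
  have hβ0 : 0 < β := lt_of_lt_of_le hβ₀ hβ
  obtain ⟨h₀, hh₀, hN⟩ := hfin β hβ
  have hX : 0 < 8 * Real.pi ^ (3 / 2 : ℝ) * ((d : ℝ) / 2) ^ (3 / 2 : ℝ) * β ^ (3 / 2 : ℝ) := by
    have h1 : 0 < Real.pi ^ (3 / 2 : ℝ) := Real.rpow_pos_of_pos Real.pi_pos _
    have h2 : 0 < ((d : ℝ) / 2) ^ (3 / 2 : ℝ) := Real.rpow_pos_of_pos (by positivity) _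
    have h3 : 0 < β ^ (3 / 2 : ℝ) := Real.rpow_pos_of_pos hβ0 _
    positivity
  have hmono : (1 - ε) * zeta32 /
      (8 * Real.pi ^ (3 / 2 : ℝ) * ((d : ℝ) / 2) ^ (3 / 2 : ℝ) * β ^ (3 / 2 : ℝ)) ≤
      (1 - ε') * zeta32 / (2 * Real.sqrt (Real.pi * (β * ((d : ℝ) / 2)))) ^ 3 := by
    rw [bloch_const_eq hβ0.le (by positivity)]
    apply div_le_div_of_nonneg_right _ hX.le
    exact mul_le_mul_of_nonneg_right (by linarith) hζ0.le
  have hfv : ∃ h₀ : ℝ, 0 < h₀ ∧ ∃ N₀ : ℕ, ∀ N : ℕ, N₀ ≤ N → ∀ t : ℝ, 0 < t → t ≤ h₀ →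
      pressure d N β t - pressure d N β 0 ≤
        t * ((d : ℝ) / 2 - (1 - ε) * zeta32 /
          (8 * Real.pi ^ (3 / 2 : ℝ) * ((d : ℝ) / 2) ^ (3 / 2 : ℝ) * β ^ (3 / 2 : ℝ))) := by
    refine ⟨h₀, hh₀, 0, fun N _ t ht htle => ?_⟩
    refine le_trans (hN N t ht htle) ?_
    exact mul_le_mul_of_nonneg_left (by linarith) ht.le
  constructor
  · obtain ⟨h₁, hh₁, N₀, hN₁⟩ := hfv
    refine ⟨h₀, hh₀, fun N t ht htle => ?_⟩
    refine le_trans (hN N t ht htle) ?_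
    exact mul_le_mul_of_nonneg_left (by linarith) ht.le
  · intro p hp m hm
    exact deriv_bound_of_finite_volume hfv p hp m hm

end Vale.Agent.H96
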