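import Vale.Agent.H96.PathEig

/-!
# The norm of the cosine eigenvectors of the path
-/

namespace Vale.Agent.H96

set_option linter.unusedSectionVars false

theorem cos_odd_sum (α : ℝ) (m : ℕ) :
    2 * Real.sin α * ∑ i ∈ Finset.range m, Real.cos (α * (2 * (i : ℝ) + 1)) =
      Real.sin (2 * (m : ℝ) * α) := by
  induction m with
  | zero => simp
  | succ m ih =>
    rw [Finset.sum_range_succ, mul_add, ih]
    have e1 : 2 * ((m + 1 : ℕ) : ℝ) * α = α * (2 * (m : ℝ) + 1) + α := by push_cast; ring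
    have e2 : 2 * (m : ℝ) * α = α * (2 * (m : ℝ) + 1) - α := by ring
    rw [e1, e2, Real.sin_add, Real.sin_sub]
    ring

theorem vcos_norm_ge {n k : ℕ} (hk : k < n) :
    (n : ℝ) / 2 ≤ ∑ i : Fin n, vcos n k i * vcos n k i := by
  have hn : 0 < n := by omega
  have hn' : (0 : ℝ) < n := by exact_mod_cast hn
  rw [Fin.sum_univ_eq_sum_range (fun i => vcos n k i * vcos n k i) n]
  set α : ℝ := Real.pi * k / n with hα
  have h1 : ∀ i : ℕ, vcos n k i * vcos n k i = 1 / 2 + Real.cos (α * (2 * (i : ℝ) + 1)) / 2 := by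
    intro i
    unfold vcos
    have e : α * (2 * (i : ℝ) + 1) = 2 * (Real.pi * k * (2 * (i : ℝ) + 1) / (2 * n)) := by
      rw [hα]; field_simp
    rw [e, Real.cos_two_mul]
    ring
  simp only [h1]
  rw [Finset.sum_add_distrib, Finset.sum_const, Finset.card_range, ← Finset.sum_div]
  have h2 : 0 ≤ ∑ i ∈ Finset.range n, Real.cos (α * (2 * (i : ℝ) + 1)) := by
    rcases Nat.eq_zero_or_pos k with hk0 | hk0
    · have hα0 : α = 0 := by rw [hα, hk0]; simp
      rw [hα0]
      simp
    · have hkpos : (0 : ℝ) < k := by exact_mod_cast hk0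
      have hklt : (k : ℝ) < n := by exact_mod_cast hk
      have hαpos : 0 < α := by rw [hα]; positivity
      have hαlt : α < Real.pi := by
        rw [hα, div_lt_iff₀ hn']
        exact mul_lt_mul_of_pos_left hklt Real.pi_pos
      have hsin : 0 < Real.sin α := Real.sin_pos_of_pos_of_lt_pi hαpos hαlt
      have h3 := cos_odd_sum α n
      have e : 2 * (n : ℝ) * α = ((2 * k : ℕ) : ℝ) * Real.pi := by
        rw [hα]; push_cast; field_simp
      rw [e, Real.sin_nat_mul_pi] at h3
      have h4 : ∑ i ∈ Finset.range n, Real.cos (α * (2 * (i : ℝ) + 1)) = 0 := by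
        rcases mul_eq_zero.mp h3 with h5 | h5
        · linarith
        · exact h5
      rw [h4]
  have h5 : (n : ℝ) / 2 = (n : ℕ) • (1 / 2 : ℝ) := by
    rw [nsmul_eq_mul]; ring
  rw [← h5]
  linarith [div_nonneg h2 (by norm_num : (0 : ℝ) ≤ 2)]

end Vale.Agent.H96
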