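import Vale.Agent.H96.HeatKernel

/-!
# The Dirichlet form of the graph Laplacian
-/

open Matrix

namespace Vale.Agent.H96

set_option linter.unusedSectionVars false

variable {V : Type*} [Fintype V] [DecidableEq V]

/-- Swapping the two summation orders: the quadratic form of the Laplacian as a sum over
the directed edges. -/
theorem sum_mul_lapM_mulVec (E : Finset (V × V)) (f : V → ℝ) :
    ∑ x : V, f x * (lapM E *ᵥ f) x = ∑ e ∈ E, f e.1 * (f e.2 - f e.1) := by
  have h1 : ∀ x : V, f x * (lapM E *ᵥ f) x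
      = ∑ e ∈ E, if e.1 = x then f e.1 * (f e.2 - f e.1) else 0 := by
    intro x
    rw [lapM_mulVec, Finset.mul_sum]
    refine Finset.sum_congr rfl fun e _ => ?_
    by_cases h : e.1 = x
    · simp [h]
    · simp [h]
  rw [Finset.sum_congr rfl fun x _ => h1 x, Finset.sum_comm]
  refine Finset.sum_congr rfl fun e _ => ?_
  rw [Finset.sum_ite_eq Finset.univ e.1 (fun _ => f e.1 * (f e.2 - f e.1))]
  simp

/-- For a symmetric edge set the sum over directed edges is invariant under reversal. -/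
theorem sum_edge_swap {E : Finset (V × V)} (hEs : ∀ e ∈ E, (e.2, e.1) ∈ E) (g : V → V → ℝ) :
    ∑ e ∈ E, g e.1 e.2 = ∑ e ∈ E, g e.2 e.1 := by
  refine Finset.sum_nbij' (fun e => (e.2, e.1)) (fun e => (e.2, e.1)) ?_ ?_ ?_ ?_ ?_
  · intro e he; exact hEs e he
  · intro e he; exact hEs e he
  · intro e _; rfl
  · intro e _; rfl
  · intro e _; rfl

theorem dirichlet_form {E : Finset (V × V)} (hEs : ∀ e ∈ E, (e.2, e.1) ∈ E) (f : V → ℝ) :
    ∑ e ∈ E, (f e.1 - f e.2) ^ 2 = -2 * ∑ x : V, f x * (lapM E *ᵥ f) x := by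
  rw [sum_mul_lapM_mulVec]
  have h2 : ∑ e ∈ E, f e.1 * (f e.2 - f e.1) = ∑ e ∈ E, f e.2 * (f e.1 - f e.2) :=
    sum_edge_swap hEs (fun a b => f a * (f b - f a))
  have h3 : ∑ e ∈ E, (f e.1 - f e.2) ^ 2
      = -(∑ e ∈ E, f e.1 * (f e.2 - f e.1)) - ∑ e ∈ E, f e.2 * (f e.1 - f e.2) := by
    rw [← Finset.sum_neg_distrib, ← Finset.sum_sub_distrib]
    refine Finset.sum_congr rfl fun e _ => ?_
    ring
  rw [h3, ← h2]
  ring

end Vale.Agent.H96
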