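import Vale.Agent.H96.BoxEig
import Vale.Agent.H96.Thermo
import Vale.Agent.H96.Sharp.CosNorm
import Vale.Agent.H96.Sharp.Dirichlet

/-!
# The normalized cosine eigenvectors of the Laplacian of the box
-/

open Matrix

namespace Vale.Agent.H96

set_option linter.unusedSectionVars false

/-- The squared norm of the product cosine eigenvector `boxVec N k`. -/
noncomputable def boxNorm (N : ℕ) (k : Site N) : ℝ :=
  ∏ j : Fin 3, ∑ c : Fin (2 * N + 1), vcos (2 * N + 1) (k j) c * vcos (2 * N + 1) (k j) c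

/-- The normalized product cosine eigenvectors. -/
noncomputable def boxPhi (N : ℕ) (k x : Site N) : ℝ := boxVec N k x / Real.sqrt (boxNorm N k)

theorem boxNorm_pos (N : ℕ) (k : Site N) : 0 < boxNorm N k :=
  Finset.prod_pos fun j _ => vcos_norm_pos (k j).2

theorem boxNorm_sqrt_pos (N : ℕ) (k : Site N) : 0 < Real.sqrt (boxNorm N k) :=
  Real.sqrt_pos.mpr (boxNorm_pos N k)

theorem boxNorm_sqrt_mul (N : ℕ) (k : Site N) :
    Real.sqrt (boxNorm N k) * Real.sqrt (boxNorm N k) = boxNorm N k :=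
  Real.mul_self_sqrt (boxNorm_pos N k).le

theorem boxVec_sum_sq (N : ℕ) (k : Site N) :
    ∑ x : Site N, boxVec N k x * boxVec N k x = boxNorm N k := by
  rw [box_orth, if_pos rfl]
  rfl

theorem boxPhi_mul (N : ℕ) (k x y : Site N) :
    boxPhi N k x * boxPhi N k y = boxVec N k x * boxVec N k y / boxNorm N k := by
  unfold boxPhi
  rw [div_mul_div_comm, boxNorm_sqrt_mul]

/-- The symmetry of the set of nearest-neighbour pairs (local copy). -/
theorem nnPairs_symm_modes {N : ℕ} : ∀ e ∈ nnPairs N, (e.2, e.1) ∈ nnPairs N := by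
  intro e he
  unfold nnPairs at he ⊢
  rw [Finset.mem_filter] at he ⊢
  refine ⟨Finset.mem_univ _, ?_⟩
  have := he.2
  unfold l1dist at this ⊢
  simp only [Nat.dist_comm] at this ⊢
  exact this

theorem boxPhi_complete (N : ℕ) (x y : Site N) :
    ∑ k : Site N, boxPhi N k x * boxPhi N k y = if x = y then 1 else 0 := by
  have hgram : (boxW N)ᵀ * boxW N = Matrix.diagonal (fun k : Site N => boxNorm N k) :=
    boxW_gram N
  have hleft : (Matrix.diagonal (fun k : Site N => (boxNorm N k)⁻¹) * (boxW N)ᵀ) * boxW N = 1 := by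
    rw [Matrix.mul_assoc, hgram, Matrix.diagonal_mul_diagonal]
    have : (fun k : Site N => (boxNorm N k)⁻¹ * boxNorm N k) = fun _ => (1 : ℝ) := by
      funext k
      exact inv_mul_cancel₀ (boxNorm_pos N k).ne'
    rw [this, Matrix.diagonal_one]
  have hright : boxW N * (Matrix.diagonal (fun k : Site N => (boxNorm N k)⁻¹) * (boxW N)ᵀ) = 1 :=
    mul_eq_one_comm.mp hleft
  have hentry := congrFun (congrFun hright x) y
  rw [Matrix.mul_apply, Matrix.one_apply] at hentry
  rw [← hentry]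
  refine Finset.sum_congr rfl fun k _ => ?_
  rw [boxPhi_mul, Matrix.diagonal_mul]
  simp only [boxW, Matrix.of_apply, Matrix.transpose_apply]
  rw [div_eq_mul_inv]
  ring

theorem boxPhi_norm (N : ℕ) (k : Site N) : ∑ x : Site N, boxPhi N k x ^ 2 = 1 := by
  have h1 : ∀ x : Site N, boxPhi N k x ^ 2 = boxVec N k x * boxVec N k x / boxNorm N k := by
    intro x
    rw [pow_two, boxPhi_mul]
  simp only [h1]
  rw [← Finset.sum_div, boxVec_sum_sq]
  exact div_self (boxNorm_pos N k).ne'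

theorem boxPhi_lap (N : ℕ) (k x : Site N) :
    (lapM (nnPairs N) *ᵥ boxPhi N k) x = -(boxLam N k) * boxPhi N k x := by
  have hfun : boxPhi N k = (Real.sqrt (boxNorm N k))⁻¹ • boxVec N k := by
    funext z
    simp only [boxPhi, Pi.smul_apply, smul_eq_mul]
    rw [div_eq_inv_mul]
  rw [hfun, Matrix.mulVec_smul, Pi.smul_apply, Pi.smul_apply, box_eig]
  simp only [smul_eq_mul]
  ring

theorem boxPhi_energy (N : ℕ) (k : Site N) :
    ∑ e ∈ nnPairs N, (boxPhi N k e.1 - boxPhi N k e.2) ^ 2 ≤ 2 * boxLam N k := by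
  rw [dirichlet_form nnPairs_symm_modes (boxPhi N k)]
  have h1 : ∀ x : Site N, boxPhi N k x * (lapM (nnPairs N) *ᵥ boxPhi N k) x =
      -(boxLam N k) * boxPhi N k x ^ 2 := by
    intro x
    rw [boxPhi_lap]
    ring
  simp only [h1]
  rw [← Finset.mul_sum, boxPhi_norm]
  linarith

theorem boxVec_sq_le_one (N : ℕ) (k x : Site N) : boxVec N k x ^ 2 ≤ 1 := by
  unfold boxVec prodVec
  rw [← Finset.prod_pow]
  apply Finset.prod_le_one
  · intro j _
    positivity
  · intro j _
    unfold vcos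
    rw [sq_le_one_iff_abs_le_one]
    exact Real.abs_cos_le_one _

theorem boxNorm_ge (N : ℕ) (k : Site N) :
    (((2 * N + 1 : ℕ) : ℝ) / 2) ^ 3 ≤ boxNorm N k := by
  unfold boxNorm
  have h : ∏ _j : Fin 3, (((2 * N + 1 : ℕ) : ℝ) / 2) ≤
      ∏ j : Fin 3, ∑ c : Fin (2 * N + 1),
        vcos (2 * N + 1) (k j) c * vcos (2 * N + 1) (k j) c := by
    apply Finset.prod_le_prod
    · intro j _
      positivity
    · intro j _
      exact vcos_norm_ge (k j).2
  rw [Finset.prod_const, Finset.card_univ, Fintype.card_fin] at h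
  exact h

theorem boxPhi_sup (N : ℕ) (k x : Site N) :
    boxPhi N k x ^ 2 ≤ 8 / (Fintype.card (Site N) : ℝ) := by
  have hB := boxNorm_pos N k
  have hge := boxNorm_ge N k
  have hcard : (Fintype.card (Site N) : ℝ) = ((2 * N + 1 : ℕ) : ℝ) ^ 3 := by
    rw [card_site]
    push_cast
    ring
  have hn : (0 : ℝ) < ((2 * N + 1 : ℕ) : ℝ) := by positivity
  have h1 : boxPhi N k x ^ 2 = boxVec N k x ^ 2 / boxNorm N k := by
    rw [pow_two, boxPhi_mul, pow_two]
  rw [h1, hcard, div_le_div_iff₀ hB (by positivity)]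
  have hv := boxVec_sq_le_one N k x
  have hv0 : 0 ≤ boxVec N k x ^ 2 := by positivity
  have h8 : ((2 * N + 1 : ℕ) : ℝ) ^ 3 ≤ 8 * boxNorm N k := by
    have : (((2 * N + 1 : ℕ) : ℝ) / 2) ^ 3 = ((2 * N + 1 : ℕ) : ℝ) ^ 3 / 8 := by ring
    rw [this] at hge
    linarith
  calc boxVec N k x ^ 2 * ((2 * N + 1 : ℕ) : ℝ) ^ 3
      ≤ 1 * ((2 * N + 1 : ℕ) : ℝ) ^ 3 := by
        apply mul_le_mul_of_nonneg_right hv
        positivity
    _ = ((2 * N + 1 : ℕ) : ℝ) ^ 3 := one_mul _
    _ ≤ 8 * boxNorm N k := h8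

end Vale.Agent.H96
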