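import Vale.Agent.H96.Sharp.GibbsDef

/-!
# The double commutator of the magnon operators with the Heisenberg Hamiltonian
-/

open Matrix

namespace Vale.Agent.H96

set_option linter.unusedSectionVars false

variable {V : Type*} [Fintype V] [DecidableEq V] (d : ℕ)

namespace DC

/-- Leibniz rule for the commutator with `a`. -/
theorem comm_mul {R : Type*} [Ring R] (a b c : R) :
    a * (b * c) - b * c * a = (a * b - b * a) * c + b * (a * c - c * a) := by
  noncomm_ring

theorem qform_conjTranspose {n : Type*} [Fintype n] [DecidableEq n] (M : Matrix n n ℂ)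
    (v : n → ℂ) : qform Mᴴ v = qform M v := by
  unfold qform
  rw [Matrix.dotProduct_mulVec, ← Matrix.star_mulVec, Matrix.star_dotProduct]
  simp

/-- `[A, S^3_x] = -φ(x) S^+_x`. -/
theorem anni_z (x : V) (φ : V → ℝ) :
    anni d φ * siteOp x (spinZ d) - siteOp x (spinZ d) * anni d φ =
      -(((φ x : ℝ) : ℂ) • siteOp x (spinPlus d)) := by
  have h := congrArg Matrix.conjTranspose (z_crea d x φ)
  rw [Matrix.conjTranspose_mul, Matrix.conjTranspose_sub, Matrix.conjTranspose_mul,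
    Matrix.conjTranspose_smul, crea_conjTranspose, siteOp_conjTranspose, siteOp_conjTranspose,
    spinMinus_conjTranspose, (spinZ_isHermitian d).eq] at h
  rw [h]
  simp

/-- `[A, S^+_x] = 0`. -/
theorem anni_p (x : V) (φ : V → ℝ) :
    anni d φ * siteOp x (spinPlus d) - siteOp x (spinPlus d) * anni d φ = 0 := by
  have h := congrArg Matrix.conjTranspose (minus_crea d x φ)
  rw [Matrix.conjTranspose_mul, Matrix.conjTranspose_mul, crea_conjTranspose,
    siteOp_conjTranspose, spinMinus_conjTranspose] at h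
  rw [h, sub_self]

/-- `[A, S^-_x] = 2 φ(x) S^3_x`. -/
theorem anni_m (x : V) (φ : V → ℝ) :
    anni d φ * siteOp x (spinMinus d) - siteOp x (spinMinus d) * anni d φ =
      ((2 * φ x : ℝ) : ℂ) • siteOp x (spinZ d) := by
  rw [anni_minus]
  abel

/-- `[Aᴴ, S^3_x] = φ(x) S^-_x`. -/
theorem crea_z (x : V) (φ : V → ℝ) :
    crea d φ * siteOp x (spinZ d) - siteOp x (spinZ d) * crea d φ =
      ((φ x : ℝ) : ℂ) • siteOp x (spinMinus d) := by
  rw [z_crea]
  abel

/-- `[Aᴴ, S^+_x] = -2 φ(x) S^3_x`. -/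
theorem crea_p (x : V) (φ : V → ℝ) :
    crea d φ * siteOp x (spinPlus d) - siteOp x (spinPlus d) * crea d φ =
      -(((2 * φ x : ℝ) : ℂ) • siteOp x (spinZ d)) := by
  rw [plus_crea]
  abel

/-- `[Aᴴ, S^-_x] = 0`. -/
theorem crea_m (x : V) (φ : V → ℝ) :
    crea d φ * siteOp x (spinMinus d) - siteOp x (spinMinus d) * crea d φ = 0 := by
  rw [minus_crea, sub_self]

/-- `W_xy = S^3_x S^+_y - S^+_x S^3_y`. -/
noncomputable def wOp (x y : V) : Matrix (V → Fin (d + 1)) (V → Fin (d + 1)) ℂ :=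
  siteOp x (spinZ d) * siteOp y (spinPlus d) - siteOp x (spinPlus d) * siteOp y (spinZ d)

/-- `[A, S_x · S_y] = (φ(x) - φ(y)) W_xy`. -/
theorem anni_spinDot (x y : V) (φ : V → ℝ) :
    anni d φ * spinDot d x y - spinDot d x y * anni d φ =
      ((φ x - φ y : ℝ) : ℂ) • wOp d x y := by
  have h1 := comm_mul (anni d φ) (siteOp x (spinZ d)) (siteOp y (spinZ d))
  rw [anni_z d x φ, anni_z d y φ] at h1
  have h2 := comm_mul (anni d φ) (siteOp x (spinPlus d)) (siteOp y (spinMinus d))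
  rw [anni_p d x φ, anni_m d y φ] at h2
  have h3 := comm_mul (anni d φ) (siteOp x (spinMinus d)) (siteOp y (spinPlus d))
  rw [anni_m d x φ, anni_p d y φ] at h3
  rw [spinDot_eq]
  have e : anni d φ * (siteOp x (spinZ d) * siteOp y (spinZ d) +
        (1 / 2 : ℂ) • (siteOp x (spinPlus d) * siteOp y (spinMinus d) +
          siteOp x (spinMinus d) * siteOp y (spinPlus d))) -
      (siteOp x (spinZ d) * siteOp y (spinZ d) +
        (1 / 2 : ℂ) • (siteOp x (spinPlus d) * siteOp y (spinMinus d) +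
          siteOp x (spinMinus d) * siteOp y (spinPlus d))) * anni d φ =
      (anni d φ * (siteOp x (spinZ d) * siteOp y (spinZ d)) -
          siteOp x (spinZ d) * siteOp y (spinZ d) * anni d φ) +
        (1 / 2 : ℂ) • ((anni d φ * (siteOp x (spinPlus d) * siteOp y (spinMinus d)) -
            siteOp x (spinPlus d) * siteOp y (spinMinus d) * anni d φ) +
          (anni d φ * (siteOp x (spinMinus d) * siteOp y (spinPlus d)) -
            siteOp x (spinMinus d) * siteOp y (spinPlus d) * anni d φ)) := by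
    simp only [mul_add, add_mul, mul_smul_comm, smul_mul_assoc]
    module
  rw [e, h1, h2, h3]
  unfold wOp
  simp only [neg_mul, mul_neg, smul_mul_assoc, mul_smul_comm, zero_mul, mul_zero, zero_add,
    add_zero]
  push_cast
  module

/-- `[A, M] = -A` for the total magnetization `M`. -/
theorem anni_magZ (φ : V → ℝ) :
    anni d φ * magZ (V := V) d - magZ (V := V) d * anni d φ = -anni d φ := by
  unfold magZ
  rw [Finset.mul_sum, Finset.sum_mul, ← Finset.sum_sub_distrib]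
  simp only [anni_z]
  rw [Finset.sum_neg_distrib]
  rfl

/-- `[A, K] = b ∑_e (φ(e.1) - φ(e.2)) W_e - b g A`. -/
theorem anni_kMat (E : Finset (V × V)) (b g : ℝ) (φ : V → ℝ) :
    anni d φ * kMat d E b g - kMat d E b g * anni d φ =
      (b : ℂ) • ∑ e ∈ E, ((φ e.1 - φ e.2 : ℝ) : ℂ) • wOp d e.1 e.2 -
        ((b * g : ℝ) : ℂ) • anni d φ := by
  have e : anni d φ * kMat d E b g - kMat d E b g * anni d φ =
      (b : ℂ) • ∑ e ∈ E, (anni d φ * spinDot d e.1 e.2 - spinDot d e.1 e.2 * anni d φ) +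
        ((b : ℂ) * (g : ℂ)) • (anni d φ * magZ (V := V) d - magZ (V := V) d * anni d φ) := by
    unfold kMat heis
    simp only [mul_smul_comm, smul_mul_assoc, mul_sub, sub_mul, mul_neg, neg_mul,
      Finset.mul_sum, Finset.sum_mul, Finset.sum_sub_distrib]
    module
  rw [e, anni_magZ, Finset.sum_congr rfl (fun e _ => anni_spinDot d e.1 e.2 φ)]
  push_cast
  module

/-- `[Aᴴ, W_xy] = φ(x) (S^-_x S^+_y + 2 S^3_x S^3_y) - φ(y) (S^+_x S^-_y + 2 S^3_x S^3_y)`. -/
theorem crea_wOp (x y : V) (φ : V → ℝ) :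
    crea d φ * wOp d x y - wOp d x y * crea d φ =
      ((φ x : ℝ) : ℂ) • (siteOp x (spinMinus d) * siteOp y (spinPlus d) +
          ((2 : ℝ) : ℂ) • (siteOp x (spinZ d) * siteOp y (spinZ d))) -
        ((φ y : ℝ) : ℂ) • (siteOp x (spinPlus d) * siteOp y (spinMinus d) +
          ((2 : ℝ) : ℂ) • (siteOp x (spinZ d) * siteOp y (spinZ d))) := by
  have h1 := comm_mul (crea d φ) (siteOp x (spinZ d)) (siteOp y (spinPlus d))
  rw [crea_z d x φ, crea_p d y φ] at h1
  have h2 := comm_mul (crea d φ) (siteOp x (spinPlus d)) (siteOp y (spinZ d))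
  rw [crea_p d x φ, crea_z d y φ] at h2
  have e : crea d φ * wOp d x y - wOp d x y * crea d φ =
      (crea d φ * (siteOp x (spinZ d) * siteOp y (spinPlus d)) -
          siteOp x (spinZ d) * siteOp y (spinPlus d) * crea d φ) -
        (crea d φ * (siteOp x (spinPlus d) * siteOp y (spinZ d)) -
          siteOp x (spinPlus d) * siteOp y (spinZ d) * crea d φ) := by
    unfold wOp
    noncomm_ring
  rw [e, h1, h2]
  simp only [neg_mul, mul_neg, smul_mul_assoc, mul_smul_comm]
  push_cast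
  module

/-- The double commutator as an operator identity. -/
theorem double_comm (E : Finset (V × V)) (b g : ℝ) (φ : V → ℝ) :
    crea d φ * (anni d φ * kMat d E b g - kMat d E b g * anni d φ) -
        (anni d φ * kMat d E b g - kMat d E b g * anni d φ) * crea d φ =
      (b : ℂ) • ∑ e ∈ E, ((φ e.1 - φ e.2 : ℝ) : ℂ) •
          (crea d φ * wOp d e.1 e.2 - wOp d e.1 e.2 * crea d φ) +
        ((b * g : ℝ) : ℂ) • (anni d φ * crea d φ - crea d φ * anni d φ) := by
  rw [anni_kMat]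
  simp only [mul_sub, sub_mul, mul_smul_comm, smul_mul_assoc, Finset.mul_sum, Finset.sum_mul,
    smul_sub, Finset.sum_sub_distrib]
  module

theorem qform_zz_le (x y : V) (v : (V → Fin (d + 1)) → ℂ) :
    qform (siteOp x (spinZ d) * siteOp y (spinZ d)) v ≤
      ((d : ℝ) / 2) ^ 2 * qform (1 : Matrix _ _ ℂ) v := by
  have e : siteOp x (spinZ d) * siteOp y (spinZ d) =
      Matrix.diagonal (fun σ : V → Fin (d + 1) =>
        ((((d : ℝ) / 2 - ((σ x : ℕ) : ℝ)) * ((d : ℝ) / 2 - ((σ y : ℕ) : ℝ)) : ℝ) : ℂ)) := by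
    unfold spinZ
    rw [siteOp_diagonal, siteOp_diagonal, Matrix.diagonal_mul_diagonal]
    congr 1
    funext σ
    push_cast
    ring
  rw [e, qform_diagonal, qform_one, Finset.mul_sum]
  apply Finset.sum_le_sum
  intro σ _
  apply mul_le_mul_of_nonneg_right _ (Complex.normSq_nonneg _)
  have ha : ((σ x : ℕ) : ℝ) ≤ (d : ℝ) := by exact_mod_cast Nat.lt_succ_iff.mp (σ x).2
  have hb : ((σ y : ℕ) : ℝ) ≤ (d : ℝ) := by exact_mod_cast Nat.lt_succ_iff.mp (σ y).2
  have ha0 : (0 : ℝ) ≤ ((σ x : ℕ) : ℝ) := Nat.cast_nonneg _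
  have hb0 : (0 : ℝ) ≤ ((σ y : ℕ) : ℝ) := Nat.cast_nonneg _
  nlinarith [mul_nonneg ha0 (sub_nonneg.2 hb), mul_nonneg hb0 (sub_nonneg.2 ha)]

theorem qform_pm_eq {x y : V} (hxy : x ≠ y) (v : (V → Fin (d + 1)) → ℂ) :
    qform (siteOp x (spinMinus d) * siteOp y (spinPlus d)) v =
      qform (siteOp x (spinPlus d) * siteOp y (spinMinus d)) v := by
  have e : siteOp x (spinMinus d) * siteOp y (spinPlus d) =
      (siteOp x (spinPlus d) * siteOp y (spinMinus d))ᴴ := by
    rw [pair_conjTranspose hxy, spinMinus_conjTranspose, spinPlus_conjTranspose]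
  rw [e, qform_conjTranspose]

theorem qform_spinDot_eq {x y : V} (hxy : x ≠ y) (v : (V → Fin (d + 1)) → ℂ) :
    qform (spinDot d x y) v = qform (siteOp x (spinZ d) * siteOp y (spinZ d)) v +
      qform (siteOp x (spinPlus d) * siteOp y (spinMinus d)) v := by
  have e2 : (1 / 2 : ℂ) = (((1 / 2 : ℝ)) : ℂ) := by push_cast; ring
  rw [spinDot_eq, e2, qform_add, qform_real_smul, qform_add, qform_pm_eq d hxy]
  ring

theorem qform_crea_wOp {x y : V} (hxy : x ≠ y) (φ : V → ℝ) (v : (V → Fin (d + 1)) → ℂ) :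
    qform (crea d φ * wOp d x y - wOp d x y * crea d φ) v =
      (φ x - φ y) * (qform (spinDot d x y) v +
        qform (siteOp x (spinZ d) * siteOp y (spinZ d)) v) := by
  rw [crea_wOp, qform_sub, qform_real_smul, qform_real_smul, qform_add, qform_add,
    qform_real_smul, qform_pm_eq d hxy, qform_spinDot_eq d hxy]
  ring

end DC

/-- The double commutator `[Aᴴ, [A, K]]` for `A = ∑_x φ(x) S^+_x` and `K = -b (H_E - g M)`
is bounded in the form sense by `b g [A, Aᴴ] + b (d²/2) ∑_{e ∈ E} (φ(e.1) - φ(e.2))²`. -/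
theorem qform_double_comm_le (E : Finset (V × V)) (hEi : ∀ e ∈ E, e.1 ≠ e.2) {b : ℝ} (hb : 0 ≤ b)
    (g : ℝ) (φ : V → ℝ) (v : (V → Fin (d + 1)) → ℂ) :
    qform (crea d φ * (anni d φ * kMat d E b g - kMat d E b g * anni d φ) -
        (anni d φ * kMat d E b g - kMat d E b g * anni d φ) * crea d φ) v ≤
      b * g * qform (anni d φ * crea d φ - crea d φ * anni d φ) v +
        b * ((d : ℝ) ^ 2 / 2) * (∑ e ∈ E, (φ e.1 - φ e.2) ^ 2) * qform (1 : Matrix _ _ ℂ) v := by
  have h1 : qform ((b : ℂ) • ∑ e ∈ E, ((φ e.1 - φ e.2 : ℝ) : ℂ) •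
      (crea d φ * DC.wOp d e.1 e.2 - DC.wOp d e.1 e.2 * crea d φ)) v =
      b * ∑ e ∈ E, (φ e.1 - φ e.2) * ((φ e.1 - φ e.2) * (qform (spinDot d e.1 e.2) v +
        qform (siteOp e.1 (spinZ d) * siteOp e.2 (spinZ d)) v)) := by
    rw [qform_real_smul, qform_sum]
    congr 1
    refine Finset.sum_congr rfl (fun e he => ?_)
    rw [qform_real_smul, DC.qform_crea_wOp d (hEi e he)]
  have h2 : ∑ e ∈ E, (φ e.1 - φ e.2) * ((φ e.1 - φ e.2) * (qform (spinDot d e.1 e.2) v +
        qform (siteOp e.1 (spinZ d) * siteOp e.2 (spinZ d)) v)) ≤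
      ∑ e ∈ E, (φ e.1 - φ e.2) ^ 2 * (((d : ℝ) ^ 2 / 2) * qform (1 : Matrix _ _ ℂ) v) := by
    apply Finset.sum_le_sum
    intro e he
    have a1 := qform_spinDot_le d (hEi e he) v
    have a2 := DC.qform_zz_le d e.1 e.2 v
    have a3 : 0 ≤ (φ e.1 - φ e.2) ^ 2 := sq_nonneg _
    have a4 : qform (spinDot d e.1 e.2) v +
        qform (siteOp e.1 (spinZ d) * siteOp e.2 (spinZ d)) v ≤
        ((d : ℝ) ^ 2 / 2) * qform (1 : Matrix _ _ ℂ) v := by linarith
    calc (φ e.1 - φ e.2) * ((φ e.1 - φ e.2) * (qform (spinDot d e.1 e.2) v +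
          qform (siteOp e.1 (spinZ d) * siteOp e.2 (spinZ d)) v))
        = (φ e.1 - φ e.2) ^ 2 * (qform (spinDot d e.1 e.2) v +
          qform (siteOp e.1 (spinZ d) * siteOp e.2 (spinZ d)) v) := by ring
      _ ≤ (φ e.1 - φ e.2) ^ 2 * (((d : ℝ) ^ 2 / 2) * qform (1 : Matrix _ _ ℂ) v) :=
        mul_le_mul_of_nonneg_left a4 a3
  rw [DC.double_comm, qform_add, h1, qform_real_smul]
  have h3 := mul_le_mul_of_nonneg_left h2 hb
  rw [← Finset.sum_mul] at h3
  linarith
end Vale.Agent.H96
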