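import Vale.Agent.H96.Sharp.GibbsDef

/-!
# Elementary properties of the Gibbs average `gav K X = Re Tr (exp K * X)`
-/

open Matrix

namespace Vale.Agent.H96

set_option linter.unusedSectionVars false

variable {n : Type*} [Fintype n] [DecidableEq n]

theorem gav_add (K X Y : Matrix n n ℂ) : gav K (X + Y) = gav K X + gav K Y := by
  unfold gav
  rw [Matrix.mul_add, Matrix.trace_add, Complex.add_re]

theorem gav_sub (K X Y : Matrix n n ℂ) : gav K (X - Y) = gav K X - gav K Y := by
  unfold gav
  rw [Matrix.mul_sub, Matrix.trace_sub, Complex.sub_re]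

theorem gav_smul (K : Matrix n n ℂ) (c : ℝ) (X : Matrix n n ℂ) :
    gav K ((c : ℂ) • X) = c * gav K X := by
  unfold gav
  rw [Matrix.mul_smul, Matrix.trace_smul, smul_eq_mul, Complex.re_ofReal_mul]

theorem gav_sum {ι : Type*} (s : Finset ι) (K : Matrix n n ℂ) (F : ι → Matrix n n ℂ) :
    gav K (∑ i ∈ s, F i) = ∑ i ∈ s, gav K (F i) := by
  unfold gav
  rw [Finset.mul_sum, Matrix.trace_sum, Complex.re_sum]

theorem gav_one (K : Matrix n n ℂ) : gav K 1 = trExp K := by
  unfold gav trExp
  rw [Matrix.mul_one]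

/-- The Gibbs average in the eigenbasis of `K`. -/
theorem gav_eq_sum_qform {K : Matrix n n ℂ} (hK : K.IsHermitian) (X : Matrix n n ℂ) :
    gav K X = ∑ i, Real.exp (hK.eigenvalues i) *
      qform X (⇑(hK.eigenvectorBasis i) : n → ℂ) := by
  have e1 : gav K X =
      (Matrix.trace (Matrix.diagonal (fun i => ((Real.exp (hK.eigenvalues i) : ℝ) : ℂ)) *
        (star (hK.eigenvectorUnitary : Matrix n n ℂ) * X *
          (hK.eigenvectorUnitary : Matrix n n ℂ)))).re := by
    unfold gav
    rw [exp_eq_of_hermitian hK, Matrix.mul_assoc, Matrix.mul_assoc, Matrix.trace_mul_comm,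
      Matrix.mul_assoc]
  rw [e1]
  unfold Matrix.trace
  simp only [Matrix.diag_apply, Matrix.diagonal_mul]
  rw [Complex.re_sum]
  refine Finset.sum_congr rfl (fun i _ => ?_)
  rw [Complex.re_ofReal_mul]
  congr 1
  unfold qform
  congr 1
  simp only [Matrix.mul_apply, Matrix.star_apply, dotProduct, Matrix.mulVec, Pi.star_apply,
    Matrix.IsHermitian.eigenvectorUnitary_apply, Finset.sum_mul, Finset.mul_sum]
  rw [Finset.sum_comm]
  refine Finset.sum_congr rfl (fun l _ => Finset.sum_congr rfl (fun k _ => ?_))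
  ring

/-- Monotonicity of the Gibbs average in the form order. -/
theorem gav_le_of_qform {K : Matrix n n ℂ} (hK : K.IsHermitian) {X Y : Matrix n n ℂ}
    (h : ∀ v : n → ℂ, qform X v ≤ qform Y v) : gav K X ≤ gav K Y := by
  rw [gav_eq_sum_qform hK, gav_eq_sum_qform hK]
  exact Finset.sum_le_sum (fun i _ => mul_le_mul_of_nonneg_left (h _) (Real.exp_pos _).le)

/-- The Gibbs variational (Peierls-Bogoliubov) inequality
`log Tr exp L ≥ log Tr exp K + ⟨L - K⟩_K`. -/
theorem gibbs_variational [Nonempty n] {K L : Matrix n n ℂ} (hK : K.IsHermitian)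
    (hL : L.IsHermitian) :
    Real.log (trExp K) + gav K (L - K) / trExp K ≤ Real.log (trExp L) := by
  have hZ : 0 < trExp K := trExp_pos hK
  have hZeq : trExp K = ∑ i, Real.exp (hK.eigenvalues i) := trExp_eq hK
  have hP := peierls hL (fun i => (⇑(hK.eigenvectorBasis i) : n → ℂ))
    (eigenvector_orthonormal hK)
  have hq : ∀ i, qform L (⇑(hK.eigenvectorBasis i) : n → ℂ) =
      hK.eigenvalues i + qform (L - K) (⇑(hK.eigenvectorBasis i) : n → ℂ) := by
    intro i
    rw [qform_sub, qform_eigenvector hK i]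
    ring
  have hJ := convexOn_exp.map_sum_le (t := Finset.univ)
    (w := fun i => Real.exp (hK.eigenvalues i) / trExp K)
    (p := fun i => qform (L - K) (⇑(hK.eigenvectorBasis i) : n → ℂ))
    (fun i _ => div_nonneg (Real.exp_pos _).le hZ.le)
    (by rw [← Finset.sum_div, ← hZeq, div_self hZ.ne'])
    (fun i _ => Set.mem_univ _)
  simp only [smul_eq_mul] at hJ
  have e1 : ∑ i, Real.exp (hK.eigenvalues i) / trExp K *
      qform (L - K) (⇑(hK.eigenvectorBasis i) : n → ℂ) = gav K (L - K) / trExp K := by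
    rw [gav_eq_sum_qform hK, Finset.sum_div]
    refine Finset.sum_congr rfl (fun i _ => ?_)
    ring
  have e2 : trExp K * ∑ i, Real.exp (hK.eigenvalues i) / trExp K *
      Real.exp (qform (L - K) (⇑(hK.eigenvectorBasis i) : n → ℂ)) =
      ∑ i, Real.exp (qform L (⇑(hK.eigenvectorBasis i) : n → ℂ)) := by
    rw [Finset.mul_sum]
    refine Finset.sum_congr rfl (fun i _ => ?_)
    rw [hq i, Real.exp_add]
    field_simp
  rw [e1] at hJ
  have h3 : trExp K * Real.exp (gav K (L - K) / trExp K) ≤ trExp L := by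
    calc trExp K * Real.exp (gav K (L - K) / trExp K)
        ≤ trExp K * ∑ i, Real.exp (hK.eigenvalues i) / trExp K *
          Real.exp (qform (L - K) (⇑(hK.eigenvectorBasis i) : n → ℂ)) :=
          mul_le_mul_of_nonneg_left hJ hZ.le
      _ = ∑ i, Real.exp (qform L (⇑(hK.eigenvectorBasis i) : n → ℂ)) := e2
      _ ≤ trExp L := hP
  have h4 : Real.log (trExp K * Real.exp (gav K (L - K) / trExp K)) ≤ Real.log (trExp L) :=
    Real.log_le_log (mul_pos hZ (Real.exp_pos _)) h3
  rw [Real.log_mul hZ.ne' (Real.exp_pos _).ne', Real.log_exp] at h4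
  exact h4

end Vale.Agent.H96
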