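import Vale.Agent.H96.Sharp.GibbsDef

/-!
# Commutator identities for magnon operators in the Heisenberg model
-/

open Matrix

namespace Vale.Agent.H96

set_option linter.unusedSectionVars false

variable {V : Type*} [Fintype V] [DecidableEq V] (d : ℕ)

/-- `[A, Aᴴ] = ∑_x 2 φ(x)² S^3_x` for `A = ∑_x φ(x) S^+_x`. -/
theorem anni_crea_comm (φ : V → ℝ) :
    anni d φ * crea d φ - crea d φ * anni d φ =
      ∑ x : V, ((2 * φ x ^ 2 : ℝ) : ℂ) • siteOp x (spinZ d) := by
  have hc : crea d φ = ∑ x : V, ((φ x : ℝ) : ℂ) • siteOp x (spinMinus d) := rfl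
  have h1 : anni d φ * crea d φ =
      ∑ x : V, (((φ x : ℝ) : ℂ) • (siteOp x (spinMinus d) * anni d φ) +
        ((2 * φ x ^ 2 : ℝ) : ℂ) • siteOp x (spinZ d)) := by
    rw [hc, Finset.mul_sum]
    refine Finset.sum_congr rfl fun x _ => ?_
    rw [mul_smul_comm, anni_minus, smul_add, smul_smul]
    congr 2
    push_cast
    ring
  have h2 : crea d φ * anni d φ =
      ∑ x : V, ((φ x : ℝ) : ℂ) • (siteOp x (spinMinus d) * anni d φ) := by
    rw [hc, Finset.sum_mul]
    refine Finset.sum_congr rfl fun x _ => ?_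
    rw [smul_mul_assoc]
  rw [h1, h2, Finset.sum_add_distrib, add_sub_cancel_left]

/-- Completeness: `∑_k A_kᴴ A_k = ∑_x S^-_x S^+_x`. -/
theorem sum_crea_anni {ι : Type*} [Fintype ι] (φ : ι → V → ℝ)
    (h1 : ∀ x y : V, ∑ k, φ k x * φ k y = if x = y then 1 else 0) :
    ∑ k, crea d (φ k) * anni d (φ k) = ∑ x : V, siteOp x (spinMinus d * spinPlus d) := by
  have e : ∀ k, crea d (φ k) * anni d (φ k) =
      ∑ x : V, ∑ y : V, ((φ k x * φ k y : ℝ) : ℂ) •
        (siteOp x (spinMinus d) * siteOp y (spinPlus d)) := by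
    intro k
    unfold crea anni
    rw [Finset.sum_mul]
    refine Finset.sum_congr rfl fun x _ => ?_
    rw [Finset.mul_sum]
    refine Finset.sum_congr rfl fun y _ => ?_
    rw [smul_mul_assoc, mul_smul_comm, smul_smul]
    congr 1
    push_cast
    ring
  simp only [e]
  rw [Finset.sum_comm]
  refine Finset.sum_congr rfl fun x _ => ?_
  rw [Finset.sum_comm]
  have key : ∀ y : V, ∑ k, ((φ k x * φ k y : ℝ) : ℂ) •
      (siteOp x (spinMinus d) * siteOp y (spinPlus d)) =
      (if x = y then (1 : ℂ) else 0) • (siteOp x (spinMinus d) * siteOp y (spinPlus d)) := by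
    intro y
    rw [← Finset.sum_smul, ← Complex.ofReal_sum, h1]
    split_ifs <;> simp
  simp only [key, ite_smul, one_smul, zero_smul, Finset.sum_ite_eq, Finset.mem_univ, if_true]
  rw [siteOp_mul]

/-- `S^- S^+` is diagonal with entries `k (d + 1 - k)`. -/
theorem spinMinus_mul_spinPlus :
    spinMinus d * spinPlus d = Matrix.diagonal (fun k : Fin (d + 1) =>
      (((((k : ℕ) : ℝ) * ((d : ℝ) + 1 - ((k : ℕ) : ℝ)) : ℝ)) : ℂ)) := by
  ext i l
  rw [Matrix.mul_apply]
  simp only [spinPlus_apply', spinMinus_apply', Matrix.diagonal_apply]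
  rw [Fin.sum_univ_eq_sum_range (fun m => (if (i : ℕ) = m + 1 then spinW d i else 0) *
      (if (l : ℕ) = m + 1 then spinW d l else 0)) (d + 1)]
  simp only [ite_mul, zero_mul]
  have hi : (i : ℕ) ≤ d := Nat.lt_succ_iff.mp i.2
  have hl : (l : ℕ) ≤ d := Nat.lt_succ_iff.mp l.2
  rw [sum_range_pred_ite _ _ _ (by omega)]
  by_cases hil : i = l
  · subst hil
    rw [if_pos rfl]
    split_ifs with h h'
    · rw [spinW_mul_self (by omega)]
      push_cast
      ring
    · omega
    · have h0 : (i : ℕ) = 0 := by omega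
      rw [h0]
      simp
  · have hne : (i : ℕ) ≠ (l : ℕ) := fun h => hil (Fin.ext h)
    rw [if_neg hil]
    split_ifs with h h'
    · omega
    · simp
    · rfl

/-- The deviation operator is diagonal with entries `σ x`. -/
theorem devOp_eq (x : V) :
    devOp d x = Matrix.diagonal (fun σ : V → Fin (d + 1) => ((((σ x : ℕ) : ℝ)) : ℂ)) := by
  unfold devOp spinZ
  rw [siteOp_diagonal]
  ext σ τ
  rw [Matrix.sub_apply, Matrix.smul_apply, Matrix.one_apply, Matrix.diagonal_apply,
    Matrix.diagonal_apply]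
  split_ifs with h
  · simp
  · simp

/-- `S^-_x S^+_x ≤ d (d/2 - S^3_x)`. -/
theorem qform_minus_plus_le (x : V) (v : (V → Fin (d + 1)) → ℂ) :
    qform (siteOp x (spinMinus d * spinPlus d)) v ≤ (d : ℝ) * qform (devOp d x) v := by
  rw [spinMinus_mul_spinPlus, siteOp_diagonal, devOp_eq, qform_diagonal, qform_diagonal,
    Finset.mul_sum]
  refine Finset.sum_le_sum fun σ _ => ?_
  rw [← mul_assoc]
  apply mul_le_mul_of_nonneg_right _ (Complex.normSq_nonneg _)
  rcases Nat.eq_zero_or_pos ((σ x : Fin (d + 1)) : ℕ) with h0 | h1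
  · rw [h0]
    simp
  · have h : (1 : ℝ) ≤ (((σ x : Fin (d + 1)) : ℕ) : ℝ) := by exact_mod_cast h1
    nlinarith

theorem qform_devOp_nonneg (x : V) (v : (V → Fin (d + 1)) → ℂ) : 0 ≤ qform (devOp d x) v := by
  rw [devOp_eq, qform_diagonal]
  exact Finset.sum_nonneg fun σ _ => mul_nonneg (Nat.cast_nonneg _) (Complex.normSq_nonneg _)

end Vale.Agent.H96
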