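import Vale.Agent.H96.Sharp.GibbsDef

/-!
# Roepstorff's inequality

For a Hermitian matrix `K` (playing the role of `-β H`) and an arbitrary matrix `A`, with
`⟨X⟩ = Re Tr (exp K * X)`: if `⟨[Aᴴ, [A, K]]⟩ ≤ ω ⟨[A, Aᴴ]⟩` with `ω > 0`, then
`⟨[A, Aᴴ]⟩ ≤ (exp ω - 1) ⟨Aᴴ A⟩`.
-/

open Matrix

namespace Vale.Agent.H96

set_option linter.unusedSectionVars false

variable {n : Type*} [Fintype n] [DecidableEq n]

namespace Roep

/-- The pointwise inequality `G(u) ≥ 0` in the variables `x = κ_i`, `y = κ_j`. -/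
theorem point (ω x y : ℝ) :
    0 ≤ (Real.exp ω - 1) * ((Real.exp ω - 1) * Real.exp y - (Real.exp x - Real.exp y)) -
      Real.exp ω * (ω * (Real.exp x - Real.exp y) - (Real.exp y - Real.exp x) * (y - x)) := by
  have hx : Real.exp x = Real.exp y * Real.exp ω * Real.exp (x - y - ω) := by
    rw [← Real.exp_add, ← Real.exp_add]
    congr 1
    ring
  have h1 : (x - y - ω) + 1 ≤ Real.exp (x - y - ω) := Real.add_one_le_exp _
  have h2 : -(x - y - ω) + 1 ≤ Real.exp (-(x - y - ω)) := Real.add_one_le_exp _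
  have h3 : Real.exp (-(x - y - ω)) * Real.exp (x - y - ω) = 1 := by
    rw [← Real.exp_add, neg_add_cancel, Real.exp_zero]
  have hW : 0 < Real.exp (x - y - ω) := Real.exp_pos _
  have h4 : 0 ≤ 1 - Real.exp (x - y - ω) + (x - y - ω) * Real.exp (x - y - ω) := by
    have := mul_le_mul_of_nonneg_right h2 hW.le
    rw [h3] at this
    linarith
  have e : (Real.exp ω - 1) * ((Real.exp ω - 1) * Real.exp y - (Real.exp x - Real.exp y)) -
      Real.exp ω * (ω * (Real.exp x - Real.exp y) - (Real.exp y - Real.exp x) * (y - x)) =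
      Real.exp y * Real.exp ω * (Real.exp ω * (1 - Real.exp (x - y - ω) +
        (x - y - ω) * Real.exp (x - y - ω)) + (Real.exp (x - y - ω) - 1 - (x - y - ω))) := by
    rw [hx]
    ring
  rw [e]
  have hY := Real.exp_pos y
  have hE := Real.exp_pos ω
  have h5 : 0 ≤ Real.exp ω * (1 - Real.exp (x - y - ω) +
      (x - y - ω) * Real.exp (x - y - ω)) := mul_nonneg hE.le h4
  exact mul_nonneg (mul_nonneg hY.le hE.le) (by linarith)

theorem trace_diag_mul (p r : n → ℝ) (M : Matrix n n ℂ) (hM : ∀ i, M i i = ((r i : ℝ) : ℂ)) :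
    (Matrix.trace (Matrix.diagonal (fun i => ((p i : ℝ) : ℂ)) * M)).re = ∑ i, p i * r i := by
  unfold Matrix.trace
  simp only [Matrix.diag_apply, Matrix.diagonal_mul, hM]
  rw [Complex.re_sum]
  refine Finset.sum_congr rfl (fun i _ => ?_)
  rw [← Complex.ofReal_mul, Complex.ofReal_re]

theorem diag_l1 (a : Matrix n n ℂ) (j : n) :
    (aᴴ * a) j j = ((∑ i, Complex.normSq (a i j) : ℝ) : ℂ) := by
  rw [Matrix.mul_apply, Complex.ofReal_sum]
  refine Finset.sum_congr rfl (fun i _ => ?_)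
  rw [Matrix.conjTranspose_apply, Complex.normSq_eq_conj_mul_self]
  rfl

theorem diag_l2 (a : Matrix n n ℂ) (i : n) :
    (a * aᴴ) i i = ((∑ j, Complex.normSq (a i j) : ℝ) : ℂ) := by
  rw [Matrix.mul_apply, Complex.ofReal_sum]
  refine Finset.sum_congr rfl (fun j _ => ?_)
  rw [Matrix.conjTranspose_apply, Complex.normSq_eq_conj_mul_self, mul_comm]
  rfl

theorem diag_l3 (κ : n → ℝ) (a : Matrix n n ℂ) (j : n) :
    (aᴴ * (a * Matrix.diagonal (fun i => ((κ i : ℝ) : ℂ)) -
        Matrix.diagonal (fun i => ((κ i : ℝ) : ℂ)) * a)) j j =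
      ((∑ i, Complex.normSq (a i j) * (κ j - κ i) : ℝ) : ℂ) := by
  rw [Matrix.mul_apply, Complex.ofReal_sum]
  refine Finset.sum_congr rfl (fun i _ => ?_)
  rw [Matrix.conjTranspose_apply, Matrix.sub_apply, Matrix.mul_diagonal, Matrix.diagonal_mul,
    Complex.ofReal_mul, Complex.normSq_eq_conj_mul_self, Complex.ofReal_sub, starRingEnd_apply]
  ring

theorem diag_l4 (κ : n → ℝ) (a : Matrix n n ℂ) (i : n) :
    ((a * Matrix.diagonal (fun i => ((κ i : ℝ) : ℂ)) -
        Matrix.diagonal (fun i => ((κ i : ℝ) : ℂ)) * a) * aᴴ) i i =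
      ((∑ j, Complex.normSq (a i j) * (κ j - κ i) : ℝ) : ℂ) := by
  rw [Matrix.mul_apply, Complex.ofReal_sum]
  refine Finset.sum_congr rfl (fun j _ => ?_)
  rw [Matrix.conjTranspose_apply, Matrix.sub_apply, Matrix.mul_diagonal, Matrix.diagonal_mul,
    Complex.ofReal_mul, Complex.normSq_eq_conj_mul_self, Complex.ofReal_sub, starRingEnd_apply]
  ring

/-- The real inequality behind Roepstorff's inequality, for double sums. -/
theorem sums (κ : n → ℝ) (N : n → n → ℝ) (hN : ∀ i j, 0 ≤ N i j) {ω : ℝ} (hω : 0 < ω)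
    (h : (∑ j, Real.exp (κ j) * ∑ i, N i j * (κ j - κ i)) -
        (∑ i, Real.exp (κ i) * ∑ j, N i j * (κ j - κ i)) ≤
      ω * ((∑ i, Real.exp (κ i) * ∑ j, N i j) - (∑ j, Real.exp (κ j) * ∑ i, N i j))) :
    (∑ i, Real.exp (κ i) * ∑ j, N i j) - (∑ j, Real.exp (κ j) * ∑ i, N i j) ≤
      (Real.exp ω - 1) * (∑ j, Real.exp (κ j) * ∑ i, N i j) := by
  have e1 : ∑ j, Real.exp (κ j) * ∑ i, N i j = ∑ i, ∑ j, N i j * Real.exp (κ j) := by
    rw [Finset.sum_comm]
    refine Finset.sum_congr rfl (fun j _ => ?_)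
    rw [Finset.mul_sum]
    exact Finset.sum_congr rfl (fun i _ => mul_comm _ _)
  have e2 : ∑ i, Real.exp (κ i) * ∑ j, N i j = ∑ i, ∑ j, N i j * Real.exp (κ i) := by
    refine Finset.sum_congr rfl (fun i _ => ?_)
    rw [Finset.mul_sum]
    exact Finset.sum_congr rfl (fun j _ => mul_comm _ _)
  have e3 : ∑ j, Real.exp (κ j) * ∑ i, N i j * (κ j - κ i) =
      ∑ i, ∑ j, N i j * (κ j - κ i) * Real.exp (κ j) := by
    rw [Finset.sum_comm]
    refine Finset.sum_congr rfl (fun j _ => ?_)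
    rw [Finset.mul_sum]
    exact Finset.sum_congr rfl (fun i _ => mul_comm _ _)
  have e4 : ∑ i, Real.exp (κ i) * ∑ j, N i j * (κ j - κ i) =
      ∑ i, ∑ j, N i j * (κ j - κ i) * Real.exp (κ i) := by
    refine Finset.sum_congr rfl (fun i _ => ?_)
    rw [Finset.mul_sum]
    exact Finset.sum_congr rfl (fun j _ => mul_comm _ _)
  rw [e1, e2, e3, e4] at h
  rw [e1, e2]
  have key : 0 ≤ ∑ i, ∑ j, N i j *
      ((Real.exp ω - 1) * ((Real.exp ω - 1) * Real.exp (κ j) -
          (Real.exp (κ i) - Real.exp (κ j))) -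
        Real.exp ω * (ω * (Real.exp (κ i) - Real.exp (κ j)) -
          (Real.exp (κ j) - Real.exp (κ i)) * (κ j - κ i))) :=
    Finset.sum_nonneg (fun i _ => Finset.sum_nonneg (fun j _ =>
      mul_nonneg (hN i j) (point ω (κ i) (κ j))))
  have id : ∑ i, ∑ j, N i j *
      ((Real.exp ω - 1) * ((Real.exp ω - 1) * Real.exp (κ j) -
          (Real.exp (κ i) - Real.exp (κ j))) -
        Real.exp ω * (ω * (Real.exp (κ i) - Real.exp (κ j)) -
          (Real.exp (κ j) - Real.exp (κ i)) * (κ j - κ i))) =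
      (Real.exp ω - 1) * ((Real.exp ω - 1) * (∑ i, ∑ j, N i j * Real.exp (κ j)) -
          ((∑ i, ∑ j, N i j * Real.exp (κ i)) - (∑ i, ∑ j, N i j * Real.exp (κ j)))) -
        Real.exp ω * (ω * ((∑ i, ∑ j, N i j * Real.exp (κ i)) -
            (∑ i, ∑ j, N i j * Real.exp (κ j))) -
          ((∑ i, ∑ j, N i j * (κ j - κ i) * Real.exp (κ j)) -
            (∑ i, ∑ j, N i j * (κ j - κ i) * Real.exp (κ i)))) := by
    simp only [Finset.mul_sum, ← Finset.sum_sub_distrib]
    refine Finset.sum_congr rfl (fun i _ => Finset.sum_congr rfl (fun j _ => ?_))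
    ring
  rw [id] at key
  have hE : 0 < Real.exp ω - 1 := by
    have := Real.add_one_le_exp ω
    linarith
  have hE' : 0 < Real.exp ω := Real.exp_pos ω
  have h6 : 0 ≤ Real.exp ω * (ω * ((∑ i, ∑ j, N i j * Real.exp (κ i)) -
            (∑ i, ∑ j, N i j * Real.exp (κ j))) -
          ((∑ i, ∑ j, N i j * (κ j - κ i) * Real.exp (κ j)) -
            (∑ i, ∑ j, N i j * (κ j - κ i) * Real.exp (κ i)))) :=
    mul_nonneg hE'.le (by linarith)
  have h7 : 0 ≤ (Real.exp ω - 1) * ((Real.exp ω - 1) * (∑ i, ∑ j, N i j * Real.exp (κ j)) -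
          ((∑ i, ∑ j, N i j * Real.exp (κ i)) - (∑ i, ∑ j, N i j * Real.exp (κ j)))) := by
    linarith
  have h8 := nonneg_of_mul_nonneg_right h7 hE
  linarith

/-- Roepstorff's inequality when `K` is diagonal. -/
theorem diag (κ : n → ℝ) (a : Matrix n n ℂ) {ω : ℝ} (hω : 0 < ω)
    (h : (Matrix.trace (Matrix.diagonal (fun i => ((Real.exp (κ i) : ℝ) : ℂ)) *
        (aᴴ * (a * Matrix.diagonal (fun i => ((κ i : ℝ) : ℂ)) -
            Matrix.diagonal (fun i => ((κ i : ℝ) : ℂ)) * a) -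
          (a * Matrix.diagonal (fun i => ((κ i : ℝ) : ℂ)) -
            Matrix.diagonal (fun i => ((κ i : ℝ) : ℂ)) * a) * aᴴ))).re ≤
      ω * (Matrix.trace (Matrix.diagonal (fun i => ((Real.exp (κ i) : ℝ) : ℂ)) *
        (a * aᴴ - aᴴ * a))).re) :
    (Matrix.trace (Matrix.diagonal (fun i => ((Real.exp (κ i) : ℝ) : ℂ)) *
        (a * aᴴ - aᴴ * a))).re ≤
      (Real.exp ω - 1) *
        (Matrix.trace (Matrix.diagonal (fun i => ((Real.exp (κ i) : ℝ) : ℂ)) * (aᴴ * a))).re := by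
  have hT := trace_diag_mul (fun i => Real.exp (κ i)) (fun j => ∑ i, Complex.normSq (a i j))
    (aᴴ * a) (diag_l1 a)
  have hc1 := trace_diag_mul (fun i => Real.exp (κ i)) (fun i => ∑ j, Complex.normSq (a i j))
    (a * aᴴ) (diag_l2 a)
  have hw1 := trace_diag_mul (fun i => Real.exp (κ i))
    (fun j => ∑ i, Complex.normSq (a i j) * (κ j - κ i)) _ (diag_l3 κ a)
  have hw2 := trace_diag_mul (fun i => Real.exp (κ i))
    (fun i => ∑ j, Complex.normSq (a i j) * (κ j - κ i)) _ (diag_l4 κ a)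
  rw [Matrix.mul_sub, Matrix.trace_sub, Complex.sub_re, hw1, hw2, Matrix.mul_sub,
    Matrix.trace_sub, Complex.sub_re, hc1, hT] at h
  rw [Matrix.mul_sub, Matrix.trace_sub, Complex.sub_re, hc1, hT]
  exact sums κ (fun i j => Complex.normSq (a i j)) (fun i j => Complex.normSq_nonneg _) hω h

end Roep

theorem roepstorff {K : Matrix n n ℂ} (hK : K.IsHermitian) (A : Matrix n n ℂ) {ω : ℝ}
    (hω : 0 < ω)
    (h : gav K (Aᴴ * (A * K - K * A) - (A * K - K * A) * Aᴴ) ≤ ω * gav K (A * Aᴴ - Aᴴ * A)) :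
    gav K (A * Aᴴ - Aᴴ * A) ≤ (Real.exp ω - 1) * gav K (Aᴴ * A) := by
  have hUU : (hK.eigenvectorUnitary : Matrix n n ℂ) * star (hK.eigenvectorUnitary : Matrix n n ℂ)
      = 1 := unitary_mul_star _
  have hUsU : star (hK.eigenvectorUnitary : Matrix n n ℂ) * (hK.eigenvectorUnitary : Matrix n n ℂ)
      = 1 := unitary_star_mul _
  have hKeq : K = (hK.eigenvectorUnitary : Matrix n n ℂ) *
      Matrix.diagonal (fun i => ((hK.eigenvalues i : ℝ) : ℂ)) *
      star (hK.eigenvectorUnitary : Matrix n n ℂ) := by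
    have h1 := hK.spectral_theorem
    rw [Unitary.conjStarAlgAut_apply] at h1
    exact h1
  have hexp := exp_eq_of_hermitian hK
  have tr : ∀ X : Matrix n n ℂ, gav K X =
      (Matrix.trace (Matrix.diagonal (fun i => ((Real.exp (hK.eigenvalues i) : ℝ) : ℂ)) *
        (star (hK.eigenvectorUnitary : Matrix n n ℂ) * X *
          (hK.eigenvectorUnitary : Matrix n n ℂ)))).re := by
    intro X
    unfold gav
    rw [hexp, Matrix.mul_assoc, Matrix.mul_assoc, Matrix.trace_mul_comm, Matrix.mul_assoc]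
  have cm : ∀ X Y : Matrix n n ℂ,
      star (hK.eigenvectorUnitary : Matrix n n ℂ) * (X * Y) * (hK.eigenvectorUnitary : Matrix n n ℂ)
        = (star (hK.eigenvectorUnitary : Matrix n n ℂ) * X * (hK.eigenvectorUnitary : Matrix n n ℂ)) *
          (star (hK.eigenvectorUnitary : Matrix n n ℂ) * Y *
            (hK.eigenvectorUnitary : Matrix n n ℂ)) := by
    intro X Y
    have e : (star (hK.eigenvectorUnitary : Matrix n n ℂ) * X *
          (hK.eigenvectorUnitary : Matrix n n ℂ)) *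
        (star (hK.eigenvectorUnitary : Matrix n n ℂ) * Y * (hK.eigenvectorUnitary : Matrix n n ℂ))
        = star (hK.eigenvectorUnitary : Matrix n n ℂ) * X *
          ((hK.eigenvectorUnitary : Matrix n n ℂ) * star (hK.eigenvectorUnitary : Matrix n n ℂ)) *
            Y * (hK.eigenvectorUnitary : Matrix n n ℂ) := by
      simp only [Matrix.mul_assoc]
    rw [e, hUU, Matrix.mul_one]
    simp only [Matrix.mul_assoc]
  have cs : ∀ X Y : Matrix n n ℂ,
      star (hK.eigenvectorUnitary : Matrix n n ℂ) * (X - Y) * (hK.eigenvectorUnitary : Matrix n n ℂ)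
        = star (hK.eigenvectorUnitary : Matrix n n ℂ) * X * (hK.eigenvectorUnitary : Matrix n n ℂ) -
          star (hK.eigenvectorUnitary : Matrix n n ℂ) * Y *
            (hK.eigenvectorUnitary : Matrix n n ℂ) := by
    intro X Y
    rw [Matrix.mul_sub, Matrix.sub_mul]
  have ch : ∀ X : Matrix n n ℂ,
      star (hK.eigenvectorUnitary : Matrix n n ℂ) * Xᴴ * (hK.eigenvectorUnitary : Matrix n n ℂ)
        = (star (hK.eigenvectorUnitary : Matrix n n ℂ) * X *
          (hK.eigenvectorUnitary : Matrix n n ℂ))ᴴ := by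
    intro X
    rw [Matrix.conjTranspose_mul, Matrix.conjTranspose_mul, Matrix.star_eq_conjTranspose,
      Matrix.conjTranspose_conjTranspose, Matrix.mul_assoc]
  have cK : star (hK.eigenvectorUnitary : Matrix n n ℂ) * K * (hK.eigenvectorUnitary : Matrix n n ℂ)
      = Matrix.diagonal (fun i => ((hK.eigenvalues i : ℝ) : ℂ)) := by
    have h0 := congrArg (fun M : Matrix n n ℂ => star (hK.eigenvectorUnitary : Matrix n n ℂ) * M *
      (hK.eigenvectorUnitary : Matrix n n ℂ)) hKeq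
    have e : star (hK.eigenvectorUnitary : Matrix n n ℂ) *
        ((hK.eigenvectorUnitary : Matrix n n ℂ) *
          Matrix.diagonal (fun i => ((hK.eigenvalues i : ℝ) : ℂ)) *
          star (hK.eigenvectorUnitary : Matrix n n ℂ)) * (hK.eigenvectorUnitary : Matrix n n ℂ)
        = (star (hK.eigenvectorUnitary : Matrix n n ℂ) * (hK.eigenvectorUnitary : Matrix n n ℂ)) *
          Matrix.diagonal (fun i => ((hK.eigenvalues i : ℝ) : ℂ)) *
          (star (hK.eigenvectorUnitary : Matrix n n ℂ) *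
            (hK.eigenvectorUnitary : Matrix n n ℂ)) := by
      simp only [Matrix.mul_assoc]
    rw [e, hUsU, Matrix.one_mul, Matrix.mul_one] at h0
    exact h0
  rw [tr, tr] at h
  rw [tr, tr]
  simp only [cs, cm, ch, cK] at h ⊢
  exact Roep.diag hK.eigenvalues _ hω h

end Vale.Agent.H96
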