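import Vale.Agent.H96.Trial2
import Vale.Agent.H96.Sharp.Gibbs
import Vale.Agent.H96.Sharp.Roep
import Vale.Agent.H96.Sharp.MagComm
import Vale.Agent.H96.Sharp.DoubleComm

/-!
# The magnon occupation bound on a general graph

Roepstorff's inequality applied to the magnon operators `A_k = ∑_x φ_k(x) S^+_x` of an
orthonormal basis `φ_k` of approximate eigenfunctions of the graph Laplacian gives a lower bound
on the density of spin deviations in the Gibbs state of the Heisenberg ferromagnet in a field.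
-/

open Matrix

namespace Vale.Agent.H96

set_option linter.unusedSectionVars false

variable {V : Type*} [Fintype V] [DecidableEq V] (d : ℕ)

theorem kMat_isHermitian (E : Finset (V × V)) (hEi : ∀ e ∈ E, e.1 ≠ e.2) (b g : ℝ) :
    (kMat d E b g).IsHermitian :=
  field_isHermitian d E hEi b g

theorem gav_zero {n : Type*} [Fintype n] [DecidableEq n] (K : Matrix n n ℂ) :
    gav K 0 = 0 := by
  unfold gav
  simp

theorem gav_devOp_nonneg (E : Finset (V × V)) (hEi : ∀ e ∈ E, e.1 ≠ e.2) (b g : ℝ) (x : V) :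
    0 ≤ gav (kMat d E b g) (devOp d x) := by
  have h := gav_le_of_qform (kMat_isHermitian d E hEi b g) (X := 0) (Y := devOp d x)
    (fun v => by
      have h0 : qform (0 : Matrix (V → Fin (d + 1)) (V → Fin (d + 1)) ℂ) v = 0 := by
        unfold qform
        simp
      rw [h0]
      exact qform_devOp_nonneg d x v)
  rw [gav_zero] at h
  exact h

theorem gav_spinZ (K : Matrix (V → Fin (d + 1)) (V → Fin (d + 1)) ℂ) (x : V) :
    gav K (siteOp x (spinZ d)) = (d : ℝ) / 2 * trExp K - gav K (devOp d x) := by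
  have e : siteOp x (spinZ d) =
      (((d : ℝ) / 2 : ℝ) : ℂ) • (1 : Matrix (V → Fin (d + 1)) (V → Fin (d + 1)) ℂ) -
        devOp d x := by
    unfold devOp
    push_cast
    abel
  rw [e, gav_sub, gav_smul, gav_one]

/-- The magnon occupation inequality on a general graph. -/
theorem roep_graph [Nonempty V] (E : Finset (V × V)) (hEi : ∀ e ∈ E, e.1 ≠ e.2) {b g : ℝ}
    (hb : 0 ≤ b) (hbg : 0 < b * g) (φ : V → V → ℝ) (lamv : V → ℝ) {C : ℝ}
    (h1 : ∀ x y : V, ∑ k, φ k x * φ k y = if x = y then 1 else 0)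
    (h2 : ∀ k, ∑ x, φ k x ^ 2 = 1)
    (h3 : ∀ k, ∑ e ∈ E, (φ k e.1 - φ k e.2) ^ 2 ≤ 2 * lamv k)
    (h4 : ∀ k x, φ k x ^ 2 ≤ C / (Fintype.card V : ℝ))
    {δ : ℝ}
    (hδ : gav (kMat d E b g) (devTot d) = δ * (Fintype.card V : ℝ) * trExp (kMat d E b g))
    (hδC : 2 * C * δ < (d : ℝ)) :
    ((d : ℝ) - 2 * C * δ) *
        ∑ k, 1 / (Real.exp (b * g + b * (d : ℝ) ^ 2 * lamv k / ((d : ℝ) - 2 * C * δ)) - 1) ≤
      (d : ℝ) * δ * (Fintype.card V : ℝ) := by
  set K := kMat d E b g with hKdef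
  have hK : K.IsHermitian := kMat_isHermitian d E hEi b g
  set Z := trExp K with hZdef
  have hZ : 0 < Z := trExp_pos hK
  have hcard : (0 : ℝ) < (Fintype.card V : ℝ) := by exact_mod_cast Fintype.card_pos
  have hD : (0 : ℝ) < (d : ℝ) - 2 * C * δ := by linarith
  have hN : ∀ x, 0 ≤ gav K (devOp d x) := fun x => gav_devOp_nonneg d E hEi b g x
  have hNsum : ∑ x, gav K (devOp d x) = δ * (Fintype.card V : ℝ) * Z := by
    rw [← gav_sum]
    exact hδ
  -- the bound for a single mode
  have hmode : ∀ k, Z * ((d : ℝ) - 2 * C * δ) /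
      (Real.exp (b * g + b * (d : ℝ) ^ 2 * lamv k / ((d : ℝ) - 2 * C * δ)) - 1) ≤
      gav K (crea d (φ k) * anni d (φ k)) := by
    intro k
    have hlam : 0 ≤ lamv k := by
      have : 0 ≤ ∑ e ∈ E, (φ k e.1 - φ k e.2) ^ 2 := Finset.sum_nonneg fun e _ => sq_nonneg _
      linarith [h3 k]
    set ω := b * g + b * (d : ℝ) ^ 2 * lamv k / ((d : ℝ) - 2 * C * δ) with hω
    have hω0 : 0 < ω := by
      have : 0 ≤ b * (d : ℝ) ^ 2 * lamv k / ((d : ℝ) - 2 * C * δ) :=
        div_nonneg (mul_nonneg (mul_nonneg hb (sq_nonneg _)) hlam) hD.le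
      linarith
    set c := gav K (anni d (φ k) * crea d (φ k) - crea d (φ k) * anni d (φ k)) with hc
    -- the commutator expectation
    have hc1 : c = (d : ℝ) * Z - 2 * ∑ x, φ k x ^ 2 * gav K (devOp d x) := by
      rw [hc, anni_crea_comm, gav_sum]
      simp only [gav_smul, gav_spinZ]
      have e1 : ∑ x, 2 * φ k x ^ 2 * ((d : ℝ) / 2 * trExp K - gav K (devOp d x)) =
          (d : ℝ) * trExp K * ∑ x, φ k x ^ 2 - 2 * ∑ x, φ k x ^ 2 * gav K (devOp d x) := by
        rw [Finset.mul_sum, Finset.mul_sum, ← Finset.sum_sub_distrib]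
        refine Finset.sum_congr rfl fun x _ => ?_
        ring
      rw [e1, h2 k, mul_one]
    have hc2 : Z * ((d : ℝ) - 2 * C * δ) ≤ c := by
      have h5 : ∑ x, φ k x ^ 2 * gav K (devOp d x) ≤
          ∑ x, C / (Fintype.card V : ℝ) * gav K (devOp d x) :=
        Finset.sum_le_sum fun x _ => mul_le_mul_of_nonneg_right (h4 k x) (hN x)
      rw [← Finset.mul_sum, hNsum] at h5
      have h6 : C / (Fintype.card V : ℝ) * (δ * (Fintype.card V : ℝ) * Z) = C * δ * Z := by
        field_simp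
      rw [h6] at h5
      rw [hc1]
      nlinarith
    -- the double commutator
    have hw : gav K (crea d (φ k) * (anni d (φ k) * K - K * anni d (φ k)) -
        (anni d (φ k) * K - K * anni d (φ k)) * crea d (φ k)) ≤ ω * c := by
      have hq := gav_le_of_qform hK
        (X := crea d (φ k) * (anni d (φ k) * K - K * anni d (φ k)) -
          (anni d (φ k) * K - K * anni d (φ k)) * crea d (φ k))
        (Y := ((b * g : ℝ) : ℂ) • (anni d (φ k) * crea d (φ k) - crea d (φ k) * anni d (φ k)) +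
          ((b * ((d : ℝ) ^ 2 / 2) * (∑ e ∈ E, (φ k e.1 - φ k e.2) ^ 2) : ℝ) : ℂ) •
            (1 : Matrix (V → Fin (d + 1)) (V → Fin (d + 1)) ℂ))
        (fun v => by
          rw [qform_add, qform_real_smul, qform_real_smul]
          exact qform_double_comm_le d E hEi hb g (φ k) v)
      rw [gav_add, gav_smul, gav_smul, gav_one] at hq
      refine le_trans hq ?_
      have h7 : b * ((d : ℝ) ^ 2 / 2) * (∑ e ∈ E, (φ k e.1 - φ k e.2) ^ 2) * Z ≤
          b * (d : ℝ) ^ 2 * lamv k * Z := by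
        have h8 : b * ((d : ℝ) ^ 2 / 2) * (∑ e ∈ E, (φ k e.1 - φ k e.2) ^ 2) ≤
            b * ((d : ℝ) ^ 2 / 2) * (2 * lamv k) :=
          mul_le_mul_of_nonneg_left (h3 k) (mul_nonneg hb (by positivity))
        have h9 := mul_le_mul_of_nonneg_right h8 hZ.le
        linarith
      have h10 : b * (d : ℝ) ^ 2 * lamv k * Z ≤
          b * (d : ℝ) ^ 2 * lamv k / ((d : ℝ) - 2 * C * δ) * c := by
        rw [div_mul_eq_mul_div, le_div_iff₀ hD]
        have h11 : 0 ≤ b * (d : ℝ) ^ 2 * lamv k := mul_nonneg (mul_nonneg hb (sq_nonneg _)) hlam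
        have := mul_le_mul_of_nonneg_left hc2 h11
        linarith
      rw [hω, add_mul]
      linarith
    have hR := roepstorff hK (anni d (φ k)) hω0
    rw [anni_conjTranspose] at hR
    have hR2 := hR hw
    have hexp : 0 < Real.exp ω - 1 := by
      have := Real.add_one_lt_exp hω0.ne'
      linarith
    rw [div_le_iff₀ hexp]
    calc Z * ((d : ℝ) - 2 * C * δ) ≤ c := hc2
      _ ≤ (Real.exp ω - 1) * gav K (crea d (φ k) * anni d (φ k)) := hR2
      _ = gav K (crea d (φ k) * anni d (φ k)) * (Real.exp ω - 1) := by ring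
  -- summation over the modes
  have hsum : ∑ k, gav K (crea d (φ k) * anni d (φ k)) ≤ (d : ℝ) * (δ * (Fintype.card V : ℝ) * Z) := by
    rw [← gav_sum, sum_crea_anni d φ h1, gav_sum, ← hNsum, Finset.mul_sum]
    refine Finset.sum_le_sum fun x _ => ?_
    have hq := gav_le_of_qform hK (X := siteOp x (spinMinus d * spinPlus d))
      (Y := ((d : ℝ) : ℂ) • devOp d x)
      (fun v => by
        rw [qform_real_smul]
        exact qform_minus_plus_le d x v)
    rw [gav_smul] at hq
    exact hq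
  have hfin : Z * (((d : ℝ) - 2 * C * δ) *
      ∑ k, 1 / (Real.exp (b * g + b * (d : ℝ) ^ 2 * lamv k / ((d : ℝ) - 2 * C * δ)) - 1)) ≤
      Z * ((d : ℝ) * δ * (Fintype.card V : ℝ)) := by
    calc Z * (((d : ℝ) - 2 * C * δ) *
        ∑ k, 1 / (Real.exp (b * g + b * (d : ℝ) ^ 2 * lamv k / ((d : ℝ) - 2 * C * δ)) - 1))
        = ∑ k, Z * ((d : ℝ) - 2 * C * δ) /
          (Real.exp (b * g + b * (d : ℝ) ^ 2 * lamv k / ((d : ℝ) - 2 * C * δ)) - 1) := by
          rw [Finset.mul_sum, Finset.mul_sum]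
          refine Finset.sum_congr rfl fun k _ => ?_
          ring
      _ ≤ ∑ k, gav K (crea d (φ k) * anni d (φ k)) := Finset.sum_le_sum fun k _ => hmode k
      _ ≤ (d : ℝ) * (δ * (Fintype.card V : ℝ) * Z) := hsum
      _ = Z * ((d : ℝ) * δ * (Fintype.card V : ℝ)) := by ring
  exact le_of_mul_le_mul_left hfin hZ

end Vale.Agent.H96
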