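import Vale.Agent.H96.Upper2
import Vale.Agent.H96.Sharp.RoepGraph
import Vale.Agent.H96.Sharp.BoxModes

/-!
# The finite-volume magnetization inequality for the box
-/

open Matrix

namespace Vale.Agent.H96

set_option linter.unusedSectionVars false

theorem partitionFn_kMat (d N : ℕ) (β h : ℝ) :
    partitionFn d N β h = trExp (kMat d (nnPairs N) (β / 2) (2 * h)) := by
  rw [partitionFn_eq]
  rfl

theorem magZ_devTot {V : Type*} [Fintype V] [DecidableEq V] (d : ℕ) :
    magZ (V := V) d = ((((Fintype.card V : ℝ) * ((d : ℝ) / 2) : ℝ)) : ℂ) •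
      (1 : Matrix (V → Fin (d + 1)) (V → Fin (d + 1)) ℂ) - devTot d := by
  unfold devTot devOp magZ
  rw [Finset.sum_sub_distrib, Finset.sum_const, Finset.card_univ]
  rw [← Nat.cast_smul_eq_nsmul ℂ, smul_smul]
  push_cast
  abel

/-- The finite-volume inequality: the pressure difference is controlled by the density `δ` of
spin deviations in the Gibbs state with field `h`, and `δ` is bounded below by a Bose sum over
the spectrum of the Laplacian of the box. -/
theorem finite_vol_sharp (d N : ℕ) {β h : ℝ} (hβ : 0 < β) (hh : 0 < h) :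
    ∃ δ : ℝ, 0 ≤ δ ∧
      pressure d N β h - pressure d N β 0 ≤ h * ((d : ℝ) / 2 - δ) ∧
      (16 * δ < (d : ℝ) →
        ((d : ℝ) - 16 * δ) * ∑ k : Site N,
            1 / (Real.exp (β * h + β / 2 * (d : ℝ) ^ 2 * boxLam N k / ((d : ℝ) - 16 * δ)) - 1) ≤
          (d : ℝ) * δ * (Fintype.card (Site N) : ℝ)) := by
  set K := kMat d (nnPairs N) (β / 2) (2 * h) with hKdef
  set K0 := kMat d (nnPairs N) (β / 2) (2 * 0) with hK0def
  have hK : K.IsHermitian := kMat_isHermitian d (nnPairs N) nnPairs_ne _ _
  have hK0 : K0.IsHermitian := kMat_isHermitian d (nnPairs N) nnPairs_ne _ _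
  set Z := trExp K with hZdef
  have hZ : 0 < Z := trExp_pos hK
  have hcard : (0 : ℝ) < (Fintype.card (Site N) : ℝ) := by
    rw [card_site]; positivity
  set δ := gav K (devTot d) / ((Fintype.card (Site N) : ℝ) * Z) with hδdef
  have hδ : gav K (devTot d) = δ * (Fintype.card (Site N) : ℝ) * Z := by
    rw [hδdef]
    field_simp
  have hδ0 : 0 ≤ δ := by
    rw [hδdef]
    apply div_nonneg _ (mul_pos hcard hZ).le
    unfold devTot
    rw [gav_sum]
    exact Finset.sum_nonneg fun x _ => gav_devOp_nonneg d (nnPairs N) nnPairs_ne _ _ x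
  refine ⟨δ, hδ0, ?_, ?_⟩
  · -- the thermodynamic inequality
    have hvar := gibbs_variational hK hK0
    have hdiff : K0 - K = ((-(β * h) : ℝ) : ℂ) • magZ (V := Site N) d := by
      rw [hK0def, hKdef]
      unfold kMat
      push_cast
      module
    have hg : gav K (K0 - K) =
        -(β * h) * ((Fintype.card (Site N) : ℝ) * ((d : ℝ) / 2) * Z - gav K (devTot d)) := by
      rw [hdiff, gav_smul, magZ_devTot, gav_sub, gav_smul, gav_one]
    rw [hg, hδ] at hvar
    have e1 : -(β * h) * ((Fintype.card (Site N) : ℝ) * ((d : ℝ) / 2) * Z -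
        δ * (Fintype.card (Site N) : ℝ) * Z) / Z =
        -(β * h) * (Fintype.card (Site N) : ℝ) * ((d : ℝ) / 2 - δ) := by
      field_simp
    rw [e1] at hvar
    unfold pressure
    rw [partitionFn_kMat, partitionFn_kMat, ← sub_div, div_le_iff₀ (mul_pos hβ hcard)]
    have e2 : h * ((d : ℝ) / 2 - δ) * (β * (Fintype.card (Site N) : ℝ)) =
        β * h * (Fintype.card (Site N) : ℝ) * ((d : ℝ) / 2 - δ) := by ring
    rw [e2, ← hKdef, ← hK0def]
    linarith
  · intro h16
    have hbg : 0 < β / 2 * (2 * h) := by positivity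
    have := roep_graph d (nnPairs N) nnPairs_ne (b := β / 2) (g := 2 * h) (by positivity) hbg
      (boxPhi N) (boxLam N) (C := 8) (boxPhi_complete N) (boxPhi_norm N) (boxPhi_energy N)
      (boxPhi_sup N) hδ (by linarith)
    have e3 : β / 2 * (2 * h) = β * h := by ring
    have e4 : (2 : ℝ) * 8 * δ = 16 * δ := by ring
    rw [e3, e4] at this
    exact this

end Vale.Agent.H96
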