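import Vale.Agent.H96.Magnon

/-!
# Definitions for the sharp magnetization bound

* `gav K X` is the unnormalized Gibbs average `Re Tr (exp K * X)`.
* `kMat d E b g` is the exponent `-b (H_E - g M)` of the Heisenberg model in a field.
* `devOp d x` is the number of spin deviations at the site `x`, `d/2 - S^3_x`.
-/

open Matrix

namespace Vale.Agent.H96

section

variable {n : Type*} [Fintype n] [DecidableEq n]

/-- The unnormalized Gibbs average `Re Tr (exp K * X)`. -/
noncomputable def gav (K X : Matrix n n ℂ) : ℝ := (Matrix.trace (NormedSpace.exp K * X)).re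

end

section

variable {V : Type*} [Fintype V] [DecidableEq V] (d : ℕ)

/-- The exponent `-b (H_E - g M)`, where `H_E = -∑_{e ∈ E} S_{e.1} · S_{e.2}` and `M = ∑_x S^3_x`. -/
noncomputable def kMat (E : Finset (V × V)) (b g : ℝ) :
    Matrix (V → Fin (d + 1)) (V → Fin (d + 1)) ℂ :=
  -(b : ℂ) • (heis d E - (g : ℂ) • magZ d)

/-- The number of spin deviations at the site `x`: `d/2 - S^3_x`. -/
noncomputable def devOp (x : V) : Matrix (V → Fin (d + 1)) (V → Fin (d + 1)) ℂ :=
  ((d : ℂ) / 2) • (1 : Matrix (V → Fin (d + 1)) (V → Fin (d + 1)) ℂ) - siteOp x (spinZ d)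

/-- The total number of spin deviations. -/
noncomputable def devTot : Matrix (V → Fin (d + 1)) (V → Fin (d + 1)) ℂ :=
  ∑ x : V, devOp d x

end

end Vale.Agent.H96
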